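import Vale.Agent.P231.Point.Poly

/-!
The weights of the minimum principle at a point `π / 2 - v`, `0 < v < π / 4`, and the sign of the
kernel they produce. With `T = tan x`, `V = tan v` the sign is a polynomial inequality in
`a = V / T`, `W = V T`.
-/

namespace Vale.Agent.P231.Point

open Real Set

/-- The coefficient of the second weight. -/
noncomputable def qc (v : ℝ) : ℝ := tan v ^ 4 / 11

/-- The constant weight on `(0, v)`. -/
noncomputable def g0 (v : ℝ) : ℝ := (1 - tan v ^ 8 / 11) / (2 * tan v)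

/-- The weight as a function of `T = tan x`, `V = tan v`. -/
noncomputable def wgtT (V T : ℝ) : ℝ :=
  (1 + V ^ 2) * (1 - V ^ 4 / 11 * (T ^ 4 + (T ^ 4)⁻¹)) / ((T + V) * (1 + T * V))

/-- Its derivative in `T`. -/
noncomputable def wgtT' (V T : ℝ) : ℝ :=
  -(wgtT V T * (1 / (T + V) + V / (1 + T * V)))
    - (1 + V ^ 2) * (V ^ 4 / 11) * (4 * T ^ 3 - 4 / T ^ 5) / ((T + V) * (1 + T * V))

/-- The weight on `(v, π / 2 - v)`. -/
noncomputable def wgt (v x : ℝ) : ℝ := wgtT (tan v) (tan x)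

/-- Its derivative. -/
noncomputable def wgt' (v x : ℝ) : ℝ := wgtT' (tan v) (tan x) * (1 / cos x ^ 2)

/-- The second weight. -/
noncomputable def ew (v x : ℝ) : ℝ := qc v * (sin x ^ 4 / cos x ^ 2)

/-- Its first derivative. -/
noncomputable def ew' (v x : ℝ) : ℝ :=
  qc v * (4 * sin x ^ 3 / cos x + 2 * sin x ^ 5 / cos x ^ 3)

/-- Its second derivative. -/
noncomputable def ew'' (v x : ℝ) : ℝ :=
  qc v * (12 * sin x ^ 2 + 14 * sin x ^ 4 / cos x ^ 2 + 6 * sin x ^ 6 / cos x ^ 4)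

/-- The coefficient which the second weight puts at `x`. -/
noncomputable def ownTerm (v x : ℝ) : ℝ :=
  -(2 * qc v * sin x ^ 2 * (4 + cos x ^ 4) / cos x ^ 4)

/-- The coefficient which the second weight at `π / 2 - x` puts at `x`. -/
noncomputable def mirTerm (v x : ℝ) : ℝ :=
  2 * qc v * cos x ^ 4 * (2 + sin x ^ 2) / sin x ^ 4

/-- `2 wgt sin x cos v sin (x + v)`, the coefficient of the derivative of the unknown. -/
noncomputable def flux (v x : ℝ) : ℝ := 2 * wgt v x * sin x * cos v * sin (x + v)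

/-- Its derivative. -/
noncomputable def flux' (v x : ℝ) : ℝ :=
  2 * cos v * (wgt' v x * sin x * sin (x + v)
    + wgt v x * (cos x * sin (x + v) + sin x * cos (x + v)))

theorem hasDerivAt_wgtT {V T : ℝ} (hV : 0 < V) (hT : 0 < T) :
    HasDerivAt (wgtT V) (wgtT' V T) T := by
  have h4 : T ^ 4 ≠ 0 := pow_ne_zero _ hT.ne'
  have hden : (T + V) * (1 + T * V) ≠ 0 := by positivity
  have h1 := (hasDerivAt_pow 4 T).fun_add ((hasDerivAt_pow 4 T).fun_inv h4)
  have h2 := ((hasDerivAt_const T (1 : ℝ)).fun_sub (h1.const_mul (V ^ 4 / 11))).const_mul (1 + V ^ 2)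
  have h3 := ((hasDerivAt_id T).add_const V).fun_mul
    (((hasDerivAt_id T).mul_const V).const_add 1)
  refine (h2.fun_div h3 hden).congr_deriv ?_
  simp only [wgtT', wgtT, id]
  field_simp
  push_cast
  ring

section
variable {v x : ℝ}

theorem pos_facts (hv : 0 < v) (hv4 : v < π / 4) :
    0 < sin v ∧ 0 < cos v ∧ 0 < tan v ∧ tan v ≤ 1 := by
  have hpi := pi_pos
  refine ⟨sin_pos_of_pos_of_lt_pi hv (by linarith),
    cos_pos_of_mem_Ioo ⟨by linarith, by linarith⟩, tan_pos_of_pos_of_lt_pi_div_two hv (by linarith),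
    ?_⟩
  rw [← tan_pi_div_four]
  exact (tan_lt_tan_of_lt_of_lt_pi_div_two (by linarith) (by linarith) hv4).le

theorem hasDerivAt_ew (hx : cos x ≠ 0) : HasDerivAt (ew v) (ew' v x) x := by
  refine ((((hasDerivAt_sin x).fun_pow 4).fun_div ((hasDerivAt_cos x).fun_pow 2)
    (pow_ne_zero _ hx)).const_mul (qc v)).congr_deriv ?_
  simp only [ew']
  field_simp
  push_cast
  ring

theorem hasDerivAt_ew' (hx : cos x ≠ 0) : HasDerivAt (ew' v) (ew'' v x) x := by
  have h1 := (((hasDerivAt_sin x).fun_pow 3).const_mul 4).fun_div (hasDerivAt_cos x) hx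
  have h2 := (((hasDerivAt_sin x).fun_pow 5).const_mul 2).fun_div ((hasDerivAt_cos x).fun_pow 3)
    (pow_ne_zero _ hx)
  refine ((h1.fun_add h2).const_mul (qc v)).congr_deriv ?_
  simp only [ew'']
  field_simp
  push_cast
  ring

theorem ownTerm_eq (hx : cos x ≠ 0) (hs : sin x ≠ 0) :
    ownTerm v x = -ew'' v x - sin x / cos x * ew' v x + 2 * ew v x / sin x ^ 2 := by
  have e := sin_sq_add_cos_sq x
  simp only [ownTerm, ew'', ew', ew]
  field_simp
  linear_combination (8 * qc v * (sin x ^ 2 + cos x ^ 2 + 1) + 2 * qc v * cos x ^ 2) * e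

theorem mirTerm_eq (hx : cos x ≠ 0) :
    mirTerm v (π / 2 - x) = 2 * ew v x / cos x ^ 2 + sin x / cos x * ew' v x := by
  have e := sin_sq_add_cos_sq x
  simp only [mirTerm, ew', ew, sin_pi_div_two_sub, cos_pi_div_two_sub]
  field_simp
  linear_combination (-2 * qc v * sin x ^ 4) * e

theorem ownTerm_nonpos : ownTerm v x ≤ 0 := by
  unfold ownTerm qc
  have : 0 ≤ 2 * (tan v ^ 4 / 11) * sin x ^ 2 * (4 + cos x ^ 4) / cos x ^ 4 := by positivity
  linarith

theorem hasDerivAt_wgt (hv : 0 < v) (hv4 : v < π / 4) (hs : 0 < sin x) (hc : 0 < cos x) :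
    HasDerivAt (wgt v) (wgt' v x) x :=
  (hasDerivAt_wgtT (pos_facts hv hv4).2.2.1 (by rw [tan_eq_sin_div_cos]; positivity)).comp x
    (hasDerivAt_tan hc.ne')

theorem hasDerivAt_flux (hv : 0 < v) (hv4 : v < π / 4) (hs : 0 < sin x) (hc : 0 < cos x) :
    HasDerivAt (flux v) (flux' v x) x := by
  have h2 := (hasDerivAt_sin (x + v)).comp_add_const x v
  refine ((((hasDerivAt_wgt hv hv4 hs hc).const_mul 2).fun_mul (hasDerivAt_sin x)).mul_const
    (cos v) |>.fun_mul h2).congr_deriv ?_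
  simp only [flux']
  ring

/-- Position of `T = tan x` for `x ∈ [v, π / 2 - v]`. -/
theorem tan_bounds (hv : 0 < v) (hv4 : v < π / 4) (h1 : v ≤ x) (h2 : x ≤ π / 2 - v) :
    0 < sin x ∧ 0 < cos x ∧ tan v ≤ tan x ∧ tan v * tan x ≤ 1 := by
  have hpi := pi_pos
  obtain ⟨hsv, hcv, hV, -⟩ := pos_facts hv hv4
  have hs : 0 < sin x := sin_pos_of_pos_of_lt_pi (by linarith) (by linarith)
  have hc : 0 < cos x := cos_pos_of_mem_Ioo ⟨by linarith, by linarith⟩
  refine ⟨hs, hc, ?_, ?_⟩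
  · rcases eq_or_lt_of_le h1 with rfl | h
    · exact le_rfl
    · exact (tan_lt_tan_of_lt_of_lt_pi_div_two (by linarith) (by linarith) h).le
  · have h := cos_nonneg_of_mem_Icc (x := x + v) ⟨by linarith, by linarith⟩
    rw [cos_add] at h
    rw [tan_eq_sin_div_cos, tan_eq_sin_div_cos, div_mul_div_comm, div_le_one (by positivity)]
    linarith

theorem cos_add_two_mul (hc : cos x ≠ 0) (hcv : cos v ≠ 0) :
    cos (x + 2 * v) = cos x * cos v ^ 2 * (1 - tan v ^ 2 - 2 * tan x * tan v) := by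
  rw [cos_add, cos_two_mul', sin_two_mul, tan_eq_sin_div_cos, tan_eq_sin_div_cos]
  field_simp


theorem psi_pos {V T : ℝ} (hV : 0 < V) (hT : 0 < T) (h1 : V ≤ T) (h2 : V * T ≤ 1) :
    0 < 1 - V ^ 4 / 11 * (T ^ 4 + (T ^ 4)⁻¹) := by
  have e1 : V ^ 4 * T ^ 4 ≤ 1 := by rw [← mul_pow]; exact pow_le_one₀ (by positivity) h2
  have e2 : V ^ 4 * (T ^ 4)⁻¹ ≤ 1 := by
    rw [← div_eq_mul_inv, div_le_one (by positivity)]; exact pow_le_pow_left₀ hV.le h1 4
  linarith

theorem wgt_pos (hv : 0 < v) (hv4 : v < π / 4) (h1 : v ≤ x) (h2 : x ≤ π / 2 - v) :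
    0 < wgt v x := by
  obtain ⟨-, -, hT1, hT2⟩ := tan_bounds hv hv4 h1 h2
  obtain ⟨-, -, hV, -⟩ := pos_facts hv hv4
  have := psi_pos hV (hV.trans_le hT1) hT1 hT2
  have hT : 0 < tan x := hV.trans_le hT1
  unfold wgt wgtT
  positivity

theorem g0_pos (hv : 0 < v) (hv4 : v < π / 4) : 0 < g0 v := by
  obtain ⟨-, -, hV, hV1⟩ := pos_facts hv hv4
  have : tan v ^ 8 ≤ 1 := pow_le_one₀ hV.le hV1
  exact div_pos (by linarith) (by positivity)

theorem wgt_flip (hv : 0 < v) (hv4 : v < π / 4) (h1 : v ≤ x) (h2 : x ≤ π / 2 - v) :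
    wgt v (π / 2 - x) * cos x ^ 2 = wgt v x * sin x ^ 2 := by
  obtain ⟨hs, hc, hT1, -⟩ := tan_bounds hv hv4 h1 h2
  obtain ⟨-, -, hV, -⟩ := pos_facts hv hv4
  have hT : 0 < tan x := hV.trans_le hT1
  have e : wgtT (tan v) (tan x)⁻¹ = tan x ^ 2 * wgtT (tan v) (tan x) := by
    simp only [wgtT]
    field_simp
    ring
  rw [wgt, tan_pi_div_two_sub, e, wgt, tan_eq_sin_div_cos]
  field_simp

/-- The bracket common to both parts of `(v, π / 2 - v)`. -/
theorem flux_part (hs : 0 < sin x) (hc : 0 < cos x) (hsv : 0 < sin v) (hcv : 0 < cos v) :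
    wgt v x * sin (2 * (x + v)) - flux' v x + 2 * cos v ^ 2 * (ownTerm v x + mirTerm v x)
      = 2 / (1 + tan v ^ 2) *
        (-(tan x * (wgtT (tan v) (tan x) * (1 + tan v ^ 2) / (1 + tan x ^ 2)
            + wgtT' (tan v) (tan x) * (tan x + tan v)))
          - 2 * (tan v ^ 4 / 11) * tan x ^ 2 * (4 * (1 + tan x ^ 2) + 1 / (1 + tan x ^ 2))
          + 2 * (tan v ^ 4 / 11) * (2 + tan x ^ 2 / (1 + tan x ^ 2)) / tan x ^ 4) := by
  have ec : 1 + tan x ^ 2 = 1 / cos x ^ 2 := by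
    rw [tan_eq_sin_div_cos]; field_simp; linarith [sin_sq_add_cos_sq x]
  have ev : 1 + tan v ^ 2 = 1 / cos v ^ 2 := by
    rw [tan_eq_sin_div_cos]; field_simp; linarith [sin_sq_add_cos_sq v]
  simp only [wgt, wgt', flux', ownTerm, mirTerm, qc, sin_two_mul, sin_add, cos_add, ec, ev]
  simp only [tan_eq_sin_div_cos]
  field_simp
  linear_combination (-(11 * cos v ^ 2 * sin x ^ 5 * cos x ^ 5
    * wgtT (sin v / cos v) (sin x / cos x))) * sin_sq_add_cos_sq v

theorem zone_eqA {V T : ℝ} (hV : 0 < V) (hT : 0 < T) :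
    2 / (1 + V ^ 2) *
        (-(T * (wgtT V T * (1 + V ^ 2) / (1 + T ^ 2) + wgtT' V T * (T + V)))
          - 2 * (V ^ 4 / 11) * T ^ 2 * (4 * (1 + T ^ 2) + 1 / (1 + T ^ 2))
          + 2 * (V ^ 4 / 11) * (2 + T ^ 2 / (1 + T ^ 2)) / T ^ 4)
      - (1 - V ^ 8 / 11) / (2 * V) * (2 * T / (1 + T ^ 2))
      = 2 * T ^ 2 / (11 * V * (1 + T ^ 2) * (T + V) * (1 + T * V) ^ 2 * (1 + V ^ 2))
          * polyA (V / T) (V * T) := by
  simp only [wgtT', wgtT, polyA, polyPert]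
  field_simp
  ring

theorem zone_eqB {V T : ℝ} (hV : 0 < V) (hT : 0 < T) (hD : 0 < T + 2 * V - V ^ 2 * T) :
    2 / (1 + V ^ 2) *
        (-(T * (wgtT V T * (1 + V ^ 2) / (1 + T ^ 2) + wgtT' V T * (T + V)))
          - 2 * (V ^ 4 / 11) * T ^ 2 * (4 * (1 + T ^ 2) + 1 / (1 + T ^ 2))
          + 2 * (V ^ 4 / 11) * (2 + T ^ 2 / (1 + T ^ 2)) / T ^ 4)
      - (T + V) ^ 2 / (T + 2 * V - V ^ 2 * T)
          * (1 - (V ^ 4 * (1 - V * T) ^ 4 / (T + V) ^ 4 + (2 * V * T + V ^ 2) ^ 4) / 11)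
          * (2 * T / (1 + T ^ 2))
      = 2 * T ^ 2 / (11 * V * (1 + T ^ 2) * (T + V) * (1 + T * V) ^ 2 * (1 + V ^ 2))
          / ((1 + 2 * (V / T) - V / T * (V * T)) * (1 + V / T)) * polyB (V / T) (V * T) := by
  simp only [wgtT', wgtT, polyB, polyPert]
  field_simp
  ring

theorem sin_two_mul_eq (hc : cos x ≠ 0) : sin (2 * x) = 2 * tan x / (1 + tan x ^ 2) := by
  rw [sin_two_mul, tan_eq_sin_div_cos]
  field_simp
  linear_combination sin x * sin_sq_add_cos_sq x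

/-- The kernel on `[π / 2 - 2 v, π / 2 - v]`. -/
theorem kernel_high (hv : 0 < v) (hv4 : v < π / 4) (h1 : v ≤ x) (h2 : x ≤ π / 2 - v)
    (h3 : π / 2 - 2 * v ≤ x) :
    wgt v x * sin (2 * (x + v)) - flux' v x + 2 * cos v ^ 2 * (ownTerm v x + mirTerm v x)
      - g0 v * sin (2 * x) ≤ 0 := by
  obtain ⟨hs, hc, hT1, hT2⟩ := tan_bounds hv hv4 h1 h2
  obtain ⟨hsv, hcv, hV, hV1⟩ := pos_facts hv hv4
  have hT : 0 < tan x := hV.trans_le hT1
  rw [flux_part hs hc hsv hcv, g0, sin_two_mul_eq hc.ne', zone_eqA hV hT]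
  refine mul_nonpos_of_nonneg_of_nonpos (by positivity)
    (polyA_nonpos (by positivity) ((div_le_one hT).2 hT1) ?_ hT2)
  have hcos : cos (x + 2 * v) ≤ 0 :=
    cos_nonpos_of_pi_div_two_le_of_le (by linarith) (by linarith [pi_pos])
  rw [cos_add_two_mul hc.ne' hcv.ne'] at hcos
  have := nonpos_of_mul_nonpos_right hcos (by positivity)
  have e : tan v * tan x * (2 + tan v / tan x) = 2 * tan x * tan v + tan v ^ 2 := by field_simp
  linarith

/-- The kernel on `[v, π / 2 - 2 v]`. -/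
theorem kernel_low (hv : 0 < v) (hv4 : v < π / 4) (h1 : v ≤ x) (h3 : x ≤ π / 2 - 2 * v) :
    wgt v x * sin (2 * (x + v)) - flux' v x + 2 * cos v ^ 2 * (ownTerm v x + mirTerm v x)
      - wgt v (π / 2 - v - x) * sin (2 * x) ≤ 0 := by
  have h2 : x ≤ π / 2 - v := by linarith
  obtain ⟨hs, hc, hT1, hT2⟩ := tan_bounds hv hv4 h1 h2
  obtain ⟨hsv, hcv, hV, hV1⟩ := pos_facts hv hv4
  set V := tan v with hVdef
  set T := tan x with hTdef
  have hT : 0 < T := hV.trans_le hT1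
  have hcos : 0 ≤ cos (x + 2 * v) := cos_nonneg_of_mem_Icc ⟨by linarith [pi_pos], by linarith⟩
  rw [cos_add_two_mul hc.ne' hcv.ne', ← hVdef, ← hTdef] at hcos
  have hW := nonneg_of_mul_nonneg_right hcos (by positivity)
  have hW1 : 0 < 1 - V * T := by nlinarith
  have hVT : V ^ 2 * T ≤ V := by
    calc V ^ 2 * T = V * (V * T) := by ring
      _ ≤ V * 1 := by gcongr
      _ = V := mul_one _
  have hD : 0 < T + 2 * V - V ^ 2 * T := by linarith
  -- the tangent of the mirrored argument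
  have hd : tan (π / 2 - v - x) = (1 - V * T) / (T + V) := by
    rw [show π / 2 - v - x = π / 2 - (x + v) by ring, tan_pi_div_two_sub, tan_eq_sin_div_cos,
      sin_add, cos_add, hVdef, hTdef, tan_eq_sin_div_cos, tan_eq_sin_div_cos]
    field_simp
  have hlow : (T + V) ^ 2 / (T + 2 * V - V ^ 2 * T)
        * (1 - (V ^ 4 * (1 - V * T) ^ 4 / (T + V) ^ 4 + (2 * V * T + V ^ 2) ^ 4) / 11)
      ≤ wgt v (π / 2 - v - x) := by
    have e : wgt v (π / 2 - v - x) = (T + V) ^ 2 / (T + 2 * V - V ^ 2 * T)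
        * (1 - (V ^ 4 * (1 - V * T) ^ 4 / (T + V) ^ 4 + (V * (T + V) / (1 - V * T)) ^ 4) / 11) := by
      have hTV : 0 < T + V := by positivity
      have e1 : (1 - V * T) / (T + V) + V = (1 + V ^ 2) / (T + V) := by field_simp; ring
      have e2 : 1 + (1 - V * T) / (T + V) * V = (T + 2 * V - V ^ 2 * T) / (T + V) := by
        field_simp; ring
      rw [wgt, wgtT, hd, ← hVdef, e1, e2, div_pow, div_pow, mul_pow]
      field_simp
    rw [e]
    gcongr
    rw [div_le_iff₀ hW1]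
    nlinarith [mul_nonneg (mul_nonneg hV.le hT.le) hW]
  have hs2 : 0 ≤ sin (2 * x) := by rw [sin_two_mul]; positivity
  have key := mul_le_mul_of_nonneg_right hlow hs2
  suffices hh : wgt v x * sin (2 * (x + v)) - flux' v x + 2 * cos v ^ 2 * (ownTerm v x + mirTerm v x)
      - (T + V) ^ 2 / (T + 2 * V - V ^ 2 * T)
        * (1 - (V ^ 4 * (1 - V * T) ^ 4 / (T + V) ^ 4 + (2 * V * T + V ^ 2) ^ 4) / 11)
        * sin (2 * x) ≤ 0 by linarith
  rw [flux_part hs hc hsv hcv, sin_two_mul_eq hc.ne', ← hVdef, ← hTdef, zone_eqB hV hT hD]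
  have hden : 0 < 1 + 2 * (V / T) - V / T * (V * T) := by
    have e : 1 + 2 * (V / T) - V / T * (V * T) = (T + 2 * V - V ^ 2 * T) / T := by field_simp
    rw [e]; positivity
  refine mul_nonpos_of_nonneg_of_nonpos (by positivity)
    (polyB_nonpos (by positivity) ((div_le_one hT).2 hT1) (by positivity) ?_)
  have e : V * T * (2 + V / T) = 2 * T * V + V ^ 2 := by field_simp
  linarith

/-- The kernel on `[π / 2 - v, π / 2]`. -/
theorem kernel_tail (hv : 0 < v) (hv4 : v < π / 4) (h1 : π / 2 - v ≤ x) (h2 : x ≤ π / 2) :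
    2 * cos v ^ 2 * mirTerm v x ≤ g0 v * sin (2 * x) := by
  have hpi := pi_pos
  obtain ⟨hsv, hcv, hV, hV1⟩ := pos_facts hv hv4
  have hs : 0 < sin x := sin_pos_of_pos_of_lt_pi (by linarith) (by linarith)
  have hc : 0 ≤ cos x := cos_nonneg_of_mem_Icc ⟨by linarith, h2⟩
  set U := cos x / sin x with hUdef
  set V := tan v with hVdef
  have hU : 0 ≤ U := by positivity
  have hUV : U ≤ V := by
    have h := cos_nonpos_of_pi_div_two_le_of_le (x := x + v) (by linarith) (by linarith)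
    rw [cos_add] at h
    rw [hUdef, hVdef, tan_eq_sin_div_cos, div_le_div_iff₀ hs hcv]
    linarith
  have eU : 1 + U ^ 2 = 1 / sin x ^ 2 := by
    rw [hUdef]; field_simp; linarith [sin_sq_add_cos_sq x]
  have e1 : mirTerm v x = 2 * (V ^ 4 / 11) * U ^ 4 * ((3 + 2 * U ^ 2) / (1 + U ^ 2)) := by
    rw [eU, mirTerm, qc, hUdef]
    field_simp
    linear_combination (-2 * cos x ^ 4 * tan v ^ 4) * sin_sq_add_cos_sq x
  have e2 : sin (2 * x) = 2 * U / (1 + U ^ 2) := by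
    rw [eU, sin_two_mul, hUdef]; field_simp
  have ev : cos v ^ 2 = 1 / (1 + V ^ 2) := by
    rw [hVdef, tan_eq_sin_div_cos]; field_simp; linarith [sin_sq_add_cos_sq v]
  have key : 2 / (1 + V ^ 2) * (2 * (V ^ 4 / 11) * U ^ 3 * (3 + 2 * U ^ 2))
      ≤ (1 - V ^ 8 / 11) / V := by
    have hb : 2 / (1 + V ^ 2) * (2 * (V ^ 4 / 11) * U ^ 3 * (3 + 2 * U ^ 2))
        ≤ 2 / (1 + V ^ 2) * (2 * (V ^ 4 / 11) * V ^ 3 * (3 + 2 * V ^ 2)) := by gcongr
    refine hb.trans ?_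
    rw [div_mul_eq_mul_div, div_le_div_iff₀ (by positivity) hV]
    have p8 : V ^ 8 ≤ 1 := pow_le_one₀ hV.le hV1
    have p2 : V ^ 8 * V ^ 2 ≤ V ^ 2 := mul_le_of_le_one_left (sq_nonneg V) p8
    have p3 : V ^ 8 ≤ V ^ 2 := pow_le_pow_of_le_one hV.le hV1 (by norm_num)
    nlinarith [p8, p2, p3]
  rw [e1, e2, ev, g0, ← hVdef]
  have e3 : 2 * (1 / (1 + V ^ 2)) * (2 * (V ^ 4 / 11) * U ^ 4 * ((3 + 2 * U ^ 2) / (1 + U ^ 2)))
      = 2 / (1 + V ^ 2) * (2 * (V ^ 4 / 11) * U ^ 3 * (3 + 2 * U ^ 2)) * (U / (1 + U ^ 2)) := by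
    field_simp
  have e4 : (1 - V ^ 8 / 11) / (2 * V) * (2 * U / (1 + U ^ 2))
      = (1 - V ^ 8 / 11) / V * (U / (1 + U ^ 2)) := by field_simp
  rw [e3, e4]
  exact mul_le_mul_of_nonneg_right key (by positivity)

/-- The point masses at `v` cancel. -/
theorem jump_eq (hv : 0 < v) (hv4 : v < π / 4) :
    g0 v * sin (2 * v) * sin (2 * v) - flux v v
      - 2 * cos v ^ 2 * (ew v (π / 2 - v) * (cos v / sin v)) = 0 := by
  obtain ⟨hsv, hcv, hV, -⟩ := pos_facts hv hv4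
  rw [flux, show v + v = 2 * v by ring, wgt, wgtT, g0, ew, qc,
    sin_pi_div_two_sub, cos_pi_div_two_sub, sin_two_mul, tan_eq_sin_div_cos]
  field_simp
  ring

end

end Vale.Agent.P231.Point
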