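import Vale.Agent.P231.Final.Normal
import Vale.Agent.P231.Growth

/-!
Limits of the normalised mean log-density at the two ends of `(0, π / 2)`: zero at `0` and the mean
cofactor at `π / 2`.
-/

namespace Vale.Agent.P231

open Matrix Real Set Filter Topology

variable {n l k : ℕ} {S : JacobiSystem l k}

/-- The mean log-determinant of a nondegenerate continuous family is continuous at `0`. -/
theorem tendsto_mean_logAbsDet {G : ℝ × ℝ → Mat n}
    (hc : ∀ p : ℝ × ℝ, |p.2| < π / 2 → ContinuousAt G p)
    (hd : ∀ p : ℝ × ℝ, |p.2| < π / 2 → (G p).det ≠ 0) :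
    Tendsto (fun s => mean fun x => logAbsDet (G (x, s))) (𝓝 0)
      (𝓝 (mean fun x => logAbsDet (G (x, 0)))) := by
  have hg : ∀ p : ℝ × ℝ, |p.2| < π / 2 → ContinuousAt (fun p => logAbsDet (G p)) p := fun p hp =>
    ((continuous_id.matrix_det.continuousAt.comp (hc p hp)).abs).log (abs_ne_zero.2 (hd p hp))
  have hline : ∀ s : ℝ, |s| < π / 2 → Continuous fun x => logAbsDet (G (x, s)) := fun s hs =>
    continuous_iff_continuousAt.2 fun x =>
      ContinuousAt.comp (g := fun p : ℝ × ℝ => logAbsDet (G p)) (f := fun x => (x, s))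
        (hg (x, s) hs) (continuous_id.prodMk continuous_const).continuousAt
  have h0 : |(0 : ℝ)| < π / 2 := by rw [abs_zero]; positivity
  rw [Metric.tendsto_nhds]
  intro ε hε
  have key : ∀ᶠ s in 𝓝 (0 : ℝ), ∀ x ∈ Icc (0 : ℝ) π,
      |logAbsDet (G (x, s)) - logAbsDet (G (x, 0))| < ε / 2 := by
    refine isCompact_Icc.eventually_forall_of_forall_eventually fun x _ => ?_
    have h1 : ContinuousAt
        (fun z : ℝ × ℝ => logAbsDet (G (z.2, z.1)) - logAbsDet (G (z.2, 0))) (0, x) := by
      refine ContinuousAt.sub ?_ ?_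
      · exact ContinuousAt.comp (g := fun p : ℝ × ℝ => logAbsDet (G p))
          (f := fun z : ℝ × ℝ => (z.2, z.1)) (hg (x, 0) h0)
          (continuous_snd.prodMk continuous_fst).continuousAt
      · exact ContinuousAt.comp (g := fun p : ℝ × ℝ => logAbsDet (G p))
          (f := fun z : ℝ × ℝ => (z.2, (0 : ℝ))) (hg (x, 0) h0)
          (continuous_snd.prodMk continuous_const).continuousAt
    have h2 := Metric.tendsto_nhds.1 h1 (ε / 2) (half_pos hε)
    filter_upwards [h2] with z hz
    simpa [Real.dist_eq] using hz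
  have hsmall : ∀ᶠ s in 𝓝 (0 : ℝ), |s| < π / 2 :=
    (isOpen_lt continuous_abs continuous_const).mem_nhds h0
  filter_upwards [key, hsmall] with s hs hs'
  rw [Real.dist_eq, ← mean_sub (hline s hs') (hline 0 h0)]
  exact lt_of_le_of_lt (abs_mean_le fun x hx => (hs x hx).le) (half_lt_self hε)

theorem log_sin_eq {t : ℝ} (ht : t ≠ 0) (h : |t| < π) :
    log (sin t) = log (sinc t) + log t := by
  have hs : sinc t ≠ 0 := by
    rw [sinc_of_ne_zero ht]
    exact div_ne_zero (fun e => ht ((sin_eq_zero_iff_of_lt_of_lt (abs_lt.1 h).1 (abs_lt.1 h).2).1 e)) ht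
  rw [← log_mul hs ht, sinc_of_ne_zero ht, div_mul_cancel₀ _ ht]

theorem tendsto_log_sinc_zero : Tendsto (fun s => log (sinc s)) (𝓝 0) (𝓝 0) := by
  have := ((continuous_sinc.tendsto 0).log (by simp))
  simpa using this

theorem tendsto_log_cos_zero : Tendsto (fun s => log (cos s)) (𝓝 0) (𝓝 0) := by
  have := ((continuous_cos.tendsto 0).log (by simp))
  simpa using this

/-- The normalised mean log-density vanishes at `0`. -/
theorem dev_left (F : JacobiFacts S) : Tendsto (dev S) (𝓝[>] 0) (𝓝 0) := by
  have hpi := pi_pos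
  have h1 := tendsto_mean_logAbsDet (fun p _ => continuousAt_scaledA F p)
    (fun p hp => det_scaledA_ne F hp)
  have e0 : (mean fun x => logAbsDet (scaledA S (x, 0))) = 0 := by
    simp [scaledA, logAbsDet, mean_const]
  rw [e0] at h1
  have h2 := h1.sub (((tendsto_log_sinc_zero.add tendsto_log_cos_zero).const_mul (l : ℝ)).add
    (tendsto_log_sinc_zero.const_mul (k : ℝ)))
  simp only [add_zero, mul_zero, sub_zero] at h2
  refine (h2.mono_left nhdsWithin_le_nhds).congr' ?_
  filter_upwards [Ioo_mem_nhdsGT (show (0 : ℝ) < π / 2 by positivity)] with t ht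
  have ht0 : t ≠ 0 := ht.1.ne'
  have habs : |t| < π / 2 := by rw [abs_of_pos ht.1]; exact ht.2
  obtain ⟨hs, hc⟩ := sin_cos_pos_pair ht
  have hcont : Continuous fun x => logAbsDet (scaledA S (x, t)) :=
    continuous_iff_continuousAt.2 fun x =>
      ContinuousAt.comp (g := fun p : ℝ × ℝ => logAbsDet (scaledA S p)) (f := fun x => (x, t))
        (((continuous_id.matrix_det.continuousAt.comp (continuousAt_scaledA F (x, t))).abs).log
          (abs_ne_zero.2 (det_scaledA_ne F habs)))
        (continuous_id.prodMk continuous_const).continuousAt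
  have e : meanLog S t = (l + k : ℝ) * log t + mean fun x => logAbsDet (scaledA S (x, t)) := by
    rw [meanLog, ← mean_const ((l + k : ℝ) * log t), ← mean_add continuous_const hcont]
    congr 1
    funext x
    rw [A_eq_smul_scaledA S ht0, logAbsDet, det_smul, Fintype.card_fin, abs_mul,
      log_mul (abs_ne_zero.2 (pow_ne_zero _ ht0))
        (abs_ne_zero.2 (det_scaledA_ne F (p := (x, t)) habs)),
      abs_pow, log_pow, log_abs, Nat.cast_add, ← logAbsDet]
  rw [dev, e, logModel, log_mul hs.ne' hc.ne', log_sin_eq ht0 (by linarith)]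
  ring

/-- The slope of `A x` on `[x + π / 2, x + π / 2 + s]`, continuous at `s = 0`. -/
noncomputable def halfSlope (S : JacobiSystem l k) (p : ℝ × ℝ) : Mat (l + k) :=
  Matrix.of fun i j => ∫ th in (0 : ℝ)..1, S.A' p.1 (p.1 + π / 2 + p.2 * th) i j

/-- The solution near half period with the zero of order `l` divided out. -/
noncomputable def scaledHalf (S : JacobiSystem l k) (p : ℝ × ℝ) : Mat (l + k) :=
  halfSlope S p * kerProj S p.1 + S.A p.1 (p.1 + π / 2 + p.2) * (1 - kerProj S p.1)

theorem continuous_scaledHalf (F : JacobiFacts S) (K : KernelFacts S) :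
    Continuous (scaledHalf S) := by
  have hD : Continuous (halfSlope S) := continuous_matrix fun i j => by
    show Continuous fun p : ℝ × ℝ => ∫ th in (0 : ℝ)..1, S.A' p.1 (p.1 + π / 2 + p.2 * th) i j
    apply intervalIntegral.continuous_parametric_intervalIntegral_of_continuous'
    exact ((F.cont_A'.matrix_elem i j)).comp ((continuous_fst.comp continuous_fst).prodMk
      (show Continuous fun q : (ℝ × ℝ) × ℝ => q.1.1 + π / 2 + q.1.2 * q.2 by fun_prop))
  have hP : Continuous fun p : ℝ × ℝ => kerProj S p.1 := K.cont.comp continuous_fst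
  exact (hD.matrix_mul hP).add
    ((F.cont_A.comp (continuous_fst.prodMk
      (show Continuous fun p : ℝ × ℝ => p.1 + π / 2 + p.2 by fun_prop))).matrix_mul
        (continuous_const.sub hP))

theorem halfSlope_zero (S : JacobiSystem l k) (x : ℝ) :
    halfSlope S (x, 0) = S.A' x (x + π / 2) := by
  ext i j
  simp [halfSlope]

theorem smul_halfSlope (F : JacobiFacts S) (x s : ℝ) :
    s • halfSlope S (x, s) = S.A x (x + π / 2 + s) - S.A x (x + π / 2) := by
  ext i j
  have hc : Continuous fun z => S.A' x z i j :=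
    (F.cont_A'.matrix_elem i j).comp (continuous_const.prodMk continuous_id)
  have h := intervalIntegral.smul_integral_comp_mul_add (a := (0 : ℝ)) (b := 1)
    (fun z => S.A' x z i j) s (x + π / 2)
  rw [intervalIntegral.integral_eq_sub_of_hasDerivAt (fun z _ => S.deriv_A x z i j)
    (hc.intervalIntegrable _ _)] at h
  simp only [mul_zero, zero_add, mul_one, smul_eq_mul] at h
  rw [Matrix.smul_apply, Matrix.sub_apply, smul_eq_mul, halfSlope, Matrix.of_apply]
  simpa [add_comm, add_left_comm, add_assoc] using h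

theorem scaledHalf_mul (F : JacobiFacts S) (K : KernelFacts S) (x s : ℝ) :
    scaledHalf S (x, s) * (s • kerProj S x + (1 - kerProj S x)) = S.A x (x + π / 2 + s) := by
  obtain ⟨hPP, -, hAP, -⟩ := K.spec x
  set P := kerProj S x with hP
  set D := halfSlope S (x, s) with hD
  set N := S.A x (x + π / 2 + s) with hN
  have h1 : P * (1 - P) = 0 := by rw [Matrix.mul_sub, Matrix.mul_one, hPP, sub_self]
  have h2 : (1 - P) * P = 0 := by rw [Matrix.sub_mul, Matrix.one_mul, hPP, sub_self]
  have h3 : (1 - P) * (1 - P) = 1 - P := by rw [Matrix.mul_sub, Matrix.mul_one, h2, sub_zero]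
  have h4 : s • (D * P) = N * P := by
    rw [← Matrix.smul_mul, hD, smul_halfSlope F x s, Matrix.sub_mul, hAP, sub_zero]
  show (D * P + N * (1 - P)) * (s • P + (1 - P)) = N
  simp only [Matrix.add_mul, Matrix.mul_add, Matrix.mul_smul, Matrix.mul_assoc, hPP, h1, h2, h3,
    Matrix.mul_zero, add_zero, zero_add]
  rw [h4, ← Matrix.mul_add, add_sub_cancel, Matrix.mul_one]

theorem scaledHalf_zero_gram (K : KernelFacts S) (x : ℝ) :
    (scaledHalf S (x, 0))ᵀ * scaledHalf S (x, 0)
      = (S.A x (x + π / 2))ᵀ * S.A x (x + π / 2) + kerProj S x := by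
  obtain ⟨-, -, hAP, -⟩ := K.spec x
  have e : scaledHalf S (x, 0)
      = S.A' x (x + π / 2) * kerProj S x + S.A x (x + π / 2) := by
    rw [scaledHalf, halfSlope_zero]
    simp only [add_zero, Matrix.mul_sub, Matrix.mul_one, hAP, sub_zero]
  set C := S.A' x (x + π / 2) * kerProj S x with hC
  set M := S.A x (x + π / 2) with hM
  have hk : Cᵀ * M = 0 := by
    have h0 := K.left (x + π / 2)
    rw [show x + π / 2 - π / 2 = x by ring, ← hM] at h0
    have h1 := congrArg Matrix.transpose (K.image x)
    rw [← hC, transpose_mul, (K.spec (x + π / 2)).2.1] at h1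
    rw [← h1, Matrix.mul_assoc, h0, Matrix.mul_zero]
  have hk' : Mᵀ * C = 0 := by
    have := congrArg Matrix.transpose hk
    rwa [transpose_mul, transpose_transpose, transpose_zero] at this
  rw [e, transpose_add, Matrix.add_mul, Matrix.mul_add, Matrix.mul_add, hk, hk', K.isometry x,
    add_zero, zero_add]
  exact add_comm _ _

theorem logAbsDet_scaledHalf_zero (K : KernelFacts S) (x : ℝ) :
    logAbsDet (scaledHalf S (x, 0)) = logCof (kerProj S x) (S.A x (x + π / 2)) := by
  rw [logCof, ← scaledHalf_zero_gram K x, Lin.log_det_gram]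
  rfl

theorem det_scaledHalf_ne (F : JacobiFacts S) (K : KernelFacts S) {p : ℝ × ℝ}
    (hp : |p.2| < π / 2) : (scaledHalf S p).det ≠ 0 := by
  obtain ⟨x, s⟩ := p
  intro h
  rcases eq_or_ne s 0 with rfl | hs
  · have := (cof_posDef rfl (K.spec x) (S.rank_half x)).det_pos
    rw [← scaledHalf_zero_gram K x, det_mul, h, mul_zero] at this
    exact lt_irrefl _ this
  · dsimp only at hp
    have hs' := abs_lt.1 hp
    have hd : (S.A x (x + (π / 2 + s))).det ≠ 0 := by
      refine F.det_ne x (π / 2 + s) (by linarith) ?_ ?_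
      · rw [abs_of_pos (by linarith)]; linarith
      · rw [abs_of_pos (by linarith)]
        exact fun e => hs (by linarith)
    rw [← add_assoc, ← scaledHalf_mul F K x s, det_mul, h, zero_mul] at hd
    exact hd rfl

/-- The normalised mean log-density tends to the mean cofactor at `π / 2`. -/
theorem dev_right (F : JacobiFacts S) (K : KernelFacts S) :
    Tendsto (dev S) (𝓝[<] (π / 2)) (𝓝 (meanCof S)) := by
  have hpi := pi_pos
  have h1 := tendsto_mean_logAbsDet (fun p _ => (continuous_scaledHalf F K).continuousAt)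
    (fun p hp => det_scaledHalf_ne F K hp)
  have e0 : (mean fun x => logAbsDet (scaledHalf S (x, 0))) = meanCof S := by
    simp only [logAbsDet_scaledHalf_zero K]; rfl
  rw [e0] at h1
  have h2 := h1.sub (((tendsto_log_sinc_zero.add tendsto_log_cos_zero).const_mul (l : ℝ)).add
    (tendsto_log_cos_zero.const_mul (k : ℝ)))
  simp only [add_zero, mul_zero, sub_zero] at h2
  have hsub : Tendsto (fun t : ℝ => t - π / 2) (𝓝[<] (π / 2)) (𝓝 0) := by
    have hc : Continuous fun t : ℝ => t - π / 2 := by fun_prop
    have := (hc.tendsto (π / 2)).mono_left (nhdsWithin_le_nhds (s := Iio (π / 2)))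
    simpa using this
  refine (h2.comp hsub).congr' ?_
  filter_upwards [Ioo_mem_nhdsLT (show (0 : ℝ) < π / 2 by positivity)] with t ht
  obtain ⟨s, rfl⟩ : ∃ s, t = π / 2 + s := ⟨t - π / 2, by ring⟩
  have hneg : s < 0 := by linarith [ht.2]
  have hs : s ≠ 0 := hneg.ne
  have habs : |s| < π / 2 := by rw [abs_of_neg hneg]; linarith [ht.1]
  have hcont : Continuous fun x => logAbsDet (scaledHalf S (x, s)) :=
    continuous_iff_continuousAt.2 fun x =>
      ((((continuous_scaledHalf F K).comp
        (continuous_id.prodMk continuous_const)).matrix_det).abs.continuousAt).log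
        (abs_ne_zero.2 (det_scaledHalf_ne F K (p := (x, s)) habs))
  have e : meanLog S (π / 2 + s) = l * log s + mean fun x => logAbsDet (scaledHalf S (x, s)) := by
    rw [meanLog, ← mean_const ((l : ℝ) * log s), ← mean_add continuous_const hcont]
    congr 1
    funext x
    show logAbsDet (S.A x (x + (π / 2 + s)))
      = (l : ℝ) * log s + log |(scaledHalf S (x, s)).det|
    rw [← add_assoc, ← scaledHalf_mul F K x s, logAbsDet, det_mul,
      det_proj_scale (K.spec x).1 (K.spec x).2.1 (K.spec x).2.2.2, abs_mul,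
      log_mul (abs_ne_zero.2 (det_scaledHalf_ne F K (p := (x, s)) habs))
        (abs_ne_zero.2 (pow_ne_zero _ hs)),
      abs_pow, log_pow, log_abs s]
    exact add_comm _ _
  obtain ⟨hsin, hcos⟩ := sin_cos_pos_pair ht
  simp only [Function.comp, add_sub_cancel_left]
  rw [dev, e, logModel, log_mul hsin.ne' hcos.ne']
  rw [add_comm (π / 2) s, sin_add_pi_div_two, cos_add_pi_div_two, log_neg_eq_log,
    log_sin_eq hs (by linarith)]
  ring

end Vale.Agent.P231
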