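import Vale.Agent.P231.Facts
import Vale.Agent.P231.Matrix.Basic

/-!
`log det X ≤ tr X - n`, with different scales on the two ranges of an orthogonal projection.
-/

namespace Vale.Agent.P231.Lin

open Matrix Real

variable {l k : ℕ}

theorem det_two_scale {P : Mat (l + k)} (hPP : P * P = P) (hPt : Pᵀ = P)
    (htr : P.trace = (l : ℝ)) (u w : ℝ) : (u • P + w • (1 - P)).det = u ^ l * w ^ k := by
  obtain ⟨V, hV, hP⟩ := exists_frame_proj (n := l + k) rfl hPP hPt htr
  rw [← hV.det_conj, Matrix.mul_add, Matrix.add_mul, Matrix.mul_smul, Matrix.smul_mul,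
    Matrix.mul_smul, Matrix.smul_mul, sandwich_sub, hV.conj_one, hP, ← fromBlocks_one,
    sub_eq_add_neg, fromBlocks_neg, fromBlocks_add, fromBlocks_smul, fromBlocks_smul,
    fromBlocks_add]
  simp

/-- The split tangent bound for `log det`. -/
theorem log_det_split_le {D P : Mat (l + k)} (hD : D.PosDef) (hPP : P * P = P) (hPt : Pᵀ = P)
    (htr : P.trace = (l : ℝ)) {a b : ℝ} (ha : 0 < a) (hb : 0 < b) :
    log D.det ≤ (P * D).trace / a + ((1 - P) * D).trace / b - (l + k) + l * log a + k * log b := by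
  set u : ℝ := (√a)⁻¹ with hu
  set w : ℝ := (√b)⁻¹ with hw
  have hu0 : 0 < u := by positivity
  have hw0 : 0 < w := by positivity
  have hu2 : u * u = a⁻¹ := by rw [hu, ← mul_inv, mul_self_sqrt ha.le]
  have hw2 : w * w = b⁻¹ := by rw [hw, ← mul_inv, mul_self_sqrt hb.le]
  set B : Mat (l + k) := u • P + w • (1 - P) with hB
  have hdetB : B.det = u ^ l * w ^ k := det_two_scale hPP hPt htr u w
  have hBt : Bᵀ = B := by simp [hB, transpose_sub, hPt]
  have hBB : B * B = a⁻¹ • P + b⁻¹ • (1 - P) := by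
    have h1 : P * (1 - P) = 0 := by rw [Matrix.mul_sub, Matrix.mul_one, hPP, sub_self]
    have h2 : (1 - P) * P = 0 := by rw [Matrix.sub_mul, Matrix.one_mul, hPP, sub_self]
    have h3 : (1 - P) * (1 - P) = 1 - P := by rw [Matrix.mul_sub, Matrix.mul_one, h2, sub_zero]
    simp only [hB, Matrix.add_mul, Matrix.mul_add, Matrix.smul_mul, Matrix.mul_smul, smul_smul,
      hPP, h1, h2, h3, smul_zero, add_zero, zero_add, hu2, hw2]
  have hdet0 : B.det ≠ 0 := by rw [hdetB]; positivity
  have hX : (B * D * B).PosDef := by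
    have := hD.conjTranspose_mul_mul_same (B := B)
      (mulVec_injective_iff_isUnit.2 ((isUnit_iff_isUnit_det _).2 hdet0.isUnit))
    rwa [conjTranspose_eq_transpose_of_trivial, hBt] at this
  obtain ⟨h, -⟩ := log_det_le hX one_pos
  rw [Fintype.card_fin, log_one, mul_zero, sub_zero, one_mul, det_mul, det_mul,
    log_mul (mul_ne_zero hdet0 hD.det_pos.ne') hdet0, log_mul hdet0 hD.det_pos.ne', hdetB,
    log_mul (pow_ne_zero _ hu0.ne') (pow_ne_zero _ hw0.ne'), log_pow, log_pow, trace_mul_cycle,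
    hBB, Matrix.add_mul, Matrix.smul_mul, Matrix.smul_mul, trace_add, trace_smul, trace_smul,
    hu, hw, log_inv, log_inv, log_sqrt ha.le, log_sqrt hb.le] at h
  simp only [smul_eq_mul] at h
  push_cast at h
  rw [div_eq_inv_mul, div_eq_inv_mul]
  linarith

end Vale.Agent.P231.Lin
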