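import Vale.Agent.P231.Point.Spec
import Vale.Agent.P231.Jacobi.Riccati
import Vale.Agent.P231.Matrix.Side
import Vale.Agent.P231.Point.Tangent

/-!
Derivative of the kernel part of the mean Riccati trace, the split inequality and the one-sided
inequality of the pointwise argument.
-/

namespace Vale.Agent.P231

open Matrix Real Set Filter Topology

variable {l k : ℕ}

section
open scoped Matrix.Norms.Operator

/-- Derivative of the Riccati operator in the base point, tested against a fixed matrix. -/
theorem hasDerivAt_trace_mul_ricc (S : JacobiSystem l k) (P : Mat (l + k)) (b y : ℝ)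
    (h : (S.A b y).det ≠ 0) :
    HasDerivAt (fun c => (P * ricc S c y).trace)
      (P * (S.A b y * (S.A b y)ᵀ)⁻¹).trace b := by
  have hu : IsUnit (S.A b y).det := isUnit_iff_ne_zero.2 h
  have hut : IsUnit ((S.A b y)ᵀ).det := by rwa [Matrix.det_transpose]
  obtain ⟨u, hu'⟩ := (Matrix.isUnit_iff_isUnit_det _).2 hu
  set D := deriv (fun c => S.A c y) b
  set D' := deriv (fun c => S.A' c y) b
  have hD : HasDerivAt (fun c => S.A c y) D b := (differentiableAt_base S b y).1.hasDerivAt
  have hD' : HasDerivAt (fun c => S.A' c y) D' b := (differentiableAt_base S b y).2.hasDerivAt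
  have hinv : HasDerivAt (fun c => (S.A c y)⁻¹) (-((S.A b y)⁻¹ * D * (S.A b y)⁻¹)) b := by
    simp only [Matrix.nonsing_inv_eq_ringInverse]
    have hi := hasFDerivAt_ringInverse (𝕜 := ℝ) u
    rw [hu'] at hi
    refine (hi.comp_hasDerivAt (f := fun c => S.A c y) b hD).congr_deriv ?_
    simp [← hu']
  have hW : (S.A b y)ᵀ * D' - (S.A' b y)ᵀ * D = 1 := by
    have h1 : HasDerivAt (fun c => (S.A b y)ᵀ * S.A' c y - (S.A' b y)ᵀ * S.A c y)
        ((S.A b y)ᵀ * D' - (S.A' b y)ᵀ * D) b := (hD'.const_mul _).fun_sub (hD.const_mul _)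
    have h2 : HasDerivAt (fun c => (S.A b c)ᵀ) (S.A' b b)ᵀ b :=
      hasDerivAt_mat fun i j => S.deriv_A b b j i
    rw [(S.init b).2, Matrix.transpose_one] at h2
    refine h1.unique (h2.congr_of_eventuallyEq (Filter.Eventually.of_forall fun c => ?_))
    show (S.A b y)ᵀ * S.A' c y - (S.A' b y)ᵀ * S.A c y = (S.A b c)ᵀ
    rw [wronskian_self, swap_A S b c, neg_neg]
  set U := ricc S b y with hU
  have hUA : (S.A b y)ᵀ * U = (S.A' b y)ᵀ := by
    rw [hU, ← ricc_symm_A S b y h, ← Matrix.transpose_mul, ricc, Matrix.mul_assoc,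
      Matrix.nonsing_inv_mul _ hu, Matrix.mul_one]
  have hkey : D' - U * D = ((S.A b y)ᵀ)⁻¹ := by
    have hx : (S.A b y)ᵀ * (D' - U * D) = 1 := by
      rw [Matrix.mul_sub, ← Matrix.mul_assoc, hUA, hW]
    calc D' - U * D = ((S.A b y)ᵀ)⁻¹ * ((S.A b y)ᵀ * (D' - U * D)) := by
          rw [← Matrix.mul_assoc, Matrix.nonsing_inv_mul _ hut, Matrix.one_mul]
      _ = _ := by rw [hx, Matrix.mul_one]
  have hd : HasDerivAt (fun c => ricc S c y) ((D' - U * D) * (S.A b y)⁻¹) b := by
    refine (hD'.fun_mul hinv).congr_deriv ?_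
    rw [hU, ricc]
    noncomm_ring
  rw [hkey, ← Matrix.mul_inv_rev] at hd
  have hd' := hd.const_mul P
  simp only [Matrix.trace]
  exact HasDerivAt.fun_sum fun i _ => hasDerivAt_entry hd' i i

end

variable {S : JacobiSystem l k}

/-- Mean of the kernel part of `(A Aᵀ)⁻¹` at lag `t`. -/
noncomputable def meanKerInv (S : JacobiSystem l k) (t : ℝ) : ℝ :=
  mean fun x => (kerProj S x * (S.A (x - t) x * (S.A (x - t) x)ᵀ)⁻¹).trace

/-- The derivative of `devKer`. -/
noncomputable def devKer' (S : JacobiSystem l k) (t : ℝ) : ℝ :=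
  -((meanKerInv S t + meanKerInv S (-t)) / 2) + l / (sin t * cos t) ^ 2

theorem continuousAt_gramInv (F : JacobiFacts S) {p : ℝ × ℝ} (h : (S.A p.1 p.2).det ≠ 0) :
    ContinuousAt (fun p : ℝ × ℝ => (S.A p.1 p.2 * (S.A p.1 p.2)ᵀ)⁻¹) p := by
  apply ContinuousAt.comp (g := fun M : Mat (l + k) => M⁻¹) ?_
    (F.cont_A.matrix_mul F.cont_A.matrix_transpose).continuousAt
  apply continuousAt_matrix_inv
  rw [Ring.inverse_eq_inv']
  apply continuousAt_inv₀
  rw [det_mul, det_transpose]
  exact mul_ne_zero h h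

theorem continuousAt_trace_ker {V : ℝ × ℝ → Mat (l + k)} (K : KernelFacts S) {p : ℝ × ℝ}
    (hV : ContinuousAt V (p.1 - p.2, p.1)) :
    ContinuousAt (fun p : ℝ × ℝ => (kerProj S p.1 * V (p.1 - p.2, p.1)).trace) p := by
  have hm : Continuous fun q : Mat (l + k) × Mat (l + k) => (q.1 * q.2).trace :=
    (continuous_fst.matrix_mul continuous_snd).matrix_trace
  have hsub : Continuous fun p : ℝ × ℝ => (p.1 - p.2, p.1) :=
    (continuous_fst.sub continuous_snd).prodMk continuous_fst
  have h1 : ContinuousAt (fun p : ℝ × ℝ => kerProj S p.1) p :=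
    (K.cont.comp continuous_fst).continuousAt
  have h2 : ContinuousAt (fun p : ℝ × ℝ => V (p.1 - p.2, p.1)) p :=
    ContinuousAt.comp (g := V) (f := fun p : ℝ × ℝ => (p.1 - p.2, p.1)) hV hsub.continuousAt
  exact ContinuousAt.comp (g := fun q : Mat (l + k) × Mat (l + k) => (q.1 * q.2).trace)
    (f := fun p : ℝ × ℝ => (kerProj S p.1, V (p.1 - p.2, p.1)))
    hm.continuousAt (h1.prodMk h2)

theorem continuous_ricc_ker (F : JacobiFacts S) (K : KernelFacts S) {t : ℝ} (ht : t ∈ Good) :
    Continuous fun x => (kerProj S x * ricc S (x - t) x).trace := continuous_iff_continuousAt.2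
  fun x => ContinuousAt.comp (g := fun p : ℝ × ℝ => (kerProj S p.1 * ricc S (p.1 - p.2) p.1).trace)
    (f := fun x => (x, t)) (continuousAt_trace_ker (V := fun q => ricc S q.1 q.2) K
      (continuousAt_ricc_hol F (det_ne_lag F (by simpa using ht)))) (by fun_prop)

theorem continuous_gramInv_ker (F : JacobiFacts S) (K : KernelFacts S) {t : ℝ} (ht : t ∈ Good) :
    Continuous fun x => (kerProj S x * (S.A (x - t) x * (S.A (x - t) x)ᵀ)⁻¹).trace :=
  continuous_iff_continuousAt.2 fun x => ContinuousAt.comp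
    (g := fun p : ℝ × ℝ =>
      (kerProj S p.1 * (S.A (p.1 - p.2) p.1 * (S.A (p.1 - p.2) p.1)ᵀ)⁻¹).trace)
    (f := fun x => (x, t))
    (continuousAt_trace_ker (V := fun q => (S.A q.1 q.2 * (S.A q.1 q.2)ᵀ)⁻¹) K
      (continuousAt_gramInv F (det_ne_lag F (by simpa using ht)))) (by fun_prop)

theorem hasDerivAt_meanKer (F : JacobiFacts S) (K : KernelFacts S) {t : ℝ} (ht : t ∈ Good) :
    HasDerivAt (meanKer S) (-meanKerInv S t) t := by
  obtain ⟨δ, hδ, hsub⟩ := Metric.nhds_basis_closedBall.mem_iff.1 (isOpen_good.mem_nhds ht)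
  rw [meanKerInv, ← mean_neg]
  refine hasDerivAt_mean (f := fun x t => (kerProj S x * ricc S (x - t) x).trace)
    (f' := fun x t => -(kerProj S x * (S.A (x - t) x * (S.A (x - t) x)ᵀ)⁻¹).trace) hδ
    (fun s hs => continuous_ricc_ker F K (hsub hs)) ?_ ?_
  · intro p hp
    exact ((continuousAt_trace_ker (V := fun q => (S.A q.1 q.2 * (S.A q.1 q.2)ᵀ)⁻¹) K
      (continuousAt_gramInv F (det_ne_lag F (by simpa using hsub hp.2)))).neg).continuousWithinAt
  · intro x s hs
    have := (hasDerivAt_trace_mul_ricc S (kerProj S x) (x - s) x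
      (det_ne_lag F (by simpa using hsub hs))).comp s ((hasDerivAt_id s).const_sub x)
    simpa [Function.comp_def] using this

theorem hasDerivAt_devKer (F : JacobiFacts S) (K : KernelFacts S) {t : ℝ}
    (ht : t ∈ Ioo (0 : ℝ) (π / 2)) : HasDerivAt (devKer S) (devKer' S t) t := by
  obtain ⟨hs, hc⟩ := sin_cos_pos_pair ht
  have g := good_of_pos ht.1 ht.2
  have h1 := ((hasDerivAt_meanKer F K g).fun_sub
    ((hasDerivAt_meanKer F K (good_neg g)).comp t (hasDerivAt_neg t))).div_const 2
  have h2 := ((((hasDerivAt_cos t).fun_pow 2).fun_sub ((hasDerivAt_sin t).fun_pow 2)).fun_div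
    ((hasDerivAt_sin t).fun_mul (hasDerivAt_cos t)) (mul_pos hs hc).ne').const_mul (l : ℝ)
  refine (h1.fun_sub h2).congr_deriv ?_
  unfold devKer'
  have e := sin_sq_add_cos_sq t
  push_cast
  field_simp
  linear_combination (2 * (l : ℝ) * (sin t ^ 2 + cos t ^ 2 + 1)) * e

theorem trace_mul_transpose_inv (A : Mat (l + k)) : ((A * Aᵀ)⁻¹).trace = invGram A := by
  rw [invGram, Matrix.mul_inv_rev, Matrix.mul_inv_rev, Matrix.trace_mul_comm]

theorem posDef_mul_transpose_inv {n : ℕ} {A : Mat n} (h : A.det ≠ 0) : (A * Aᵀ)⁻¹.PosDef := by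
  have := gram_posDef (M := Aᵀ) (P := (1 : Mat n)) (by rwa [det_transpose]) (Matrix.one_mul _)
    transpose_one
  simp only [transpose_transpose, Matrix.one_mul, Matrix.mul_one, sub_self, add_zero] at this
  exact this.inv

theorem log_det_mul_transpose_inv (A : Mat (l + k)) :
    log ((A * Aᵀ)⁻¹).det = -2 * logAbsDet A := by
  rw [det_nonsing_inv, Ring.inverse_eq_inv', log_inv, det_mul, det_transpose, logAbsDet, log_abs]
  rw [← sq, log_pow]
  push_cast; ring

/-- The split determinant bound, averaged at one lag. -/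
theorem meanSplit (F : JacobiFacts S) (K : KernelFacts S) {s a b : ℝ} (hs : s ∈ Good)
    (ha : 0 < a) (hb : 0 < b) :
    -2 * meanLog S s ≤ meanKerInv S s / a + (meanInv S s - meanKerInv S s) / b
      - ((l : ℝ) + k) + l * log a + k * log b := by
  have c1 : Continuous fun x => logAbsDet (S.A (x - s) x) :=
    ((continuous_logAbsDet_line F hs).comp
      (continuous_id.sub (continuous_const (y := s)))).congr fun x => by simp
  have c2 := continuous_gramInv_ker F K hs
  have c3 : Continuous fun x => invGram (S.A (x - s) x) :=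
    ((continuous_invGram_line F hs).comp
      (continuous_id.sub (continuous_const (y := s)))).congr fun x => by simp
  have point : ∀ x, (-2 : ℝ) * logAbsDet (S.A (x - s) x) ≤
      (1 / a - 1 / b) * (kerProj S x * (S.A (x - s) x * (S.A (x - s) x)ᵀ)⁻¹).trace
        + 1 / b * invGram (S.A (x - s) x) + (-((l : ℝ) + k) + l * log a + k * log b) := by
    intro x
    have hd : (S.A (x - s) x).det ≠ 0 := det_ne_lag F (by simpa using hs)
    obtain ⟨p1, p2, -, p4⟩ := K.spec x
    have := Lin.log_det_split_le (posDef_mul_transpose_inv hd) p1 p2 p4 ha hb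
    rw [log_det_mul_transpose_inv, Matrix.sub_mul, Matrix.one_mul, trace_sub,
      trace_mul_transpose_inv] at this
    refine this.trans_eq ?_
    ring
  have key := mean_mono (c1.const_mul (-2))
    (((c2.const_mul (1 / a - 1 / b)).fun_add (c3.const_mul (1 / b))).fun_add continuous_const) point
  rw [mean_const_mul] at key
  rw [show mean (fun x => (1 / a - 1 / b) *
      (kerProj S x * (S.A (x - s) x * (S.A (x - s) x)ᵀ)⁻¹).trace + 1 / b * invGram (S.A (x - s) x)
        + (-((l : ℝ) + k) + l * log a + k * log b))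
      = (1 / a - 1 / b) * meanKerInv S s + 1 / b * mean (fun x => invGram (S.A (x - s) x))
        + (-((l : ℝ) + k) + l * log a + k * log b) from mean_lin2 c2 c3 _ _ _] at key
  have e1 : mean (fun x => logAbsDet (S.A (x - s) x)) = meanLog S s := by
    rw [meanLog, ← mean_shift (periodic_logAbsDet F s) (-s)]
    congr 1; funext x
    rw [show x + -s + s = x by ring, sub_eq_add_neg]
  have e2 : mean (fun x => invGram (S.A (x - s) x)) = meanInv S s := by
    rw [meanInv, ← mean_shift (periodic_invGram F s) (-s)]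
    congr 1; funext x
    rw [show x + -s + s = x by ring, sub_eq_add_neg]
  rw [e1, e2] at key
  refine key.trans_eq ?_
  ring

/-- The `split` field. -/
theorem dev_split (F : JacobiFacts S) (K : KernelFacts S) {t : ℝ}
    (ht : t ∈ Ioo (0 : ℝ) (π / 2)) :
    0 ≤ 2 * dev S t - (sin t * cos t) ^ 2 * devKer' S t
      - sin t ^ 2 * (dev'' S t - devKer' S t) := by
  obtain ⟨hs, hc⟩ := sin_cos_pos_pair ht
  have g := good_of_pos ht.1 ht.2
  have ha : 0 < 1 / (sin t * cos t) ^ 2 := by positivity
  have hb : 0 < 1 / sin t ^ 2 := by positivity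
  have k1 := meanSplit F K g ha hb
  have k2 := meanSplit F K (good_neg g) ha hb
  rw [meanLog_neg F, meanInv_neg F] at k2
  rw [log_inv_sq, log_inv_sq, div_div_eq_mul_div, div_div_eq_mul_div, div_one, div_one] at k1 k2
  have e1 : (sin t * cos t) ^ 2 * devKer' S t
      = -((sin t * cos t) ^ 2 * ((meanKerInv S t + meanKerInv S (-t)) / 2)) + l := by
    unfold devKer'; field_simp
  have e2 : sin t ^ 2 * (dev'' S t - devKer' S t)
      = -(sin t ^ 2 * (meanInv S t - (meanKerInv S t + meanKerInv S (-t)) / 2)) + k := by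
    unfold devKer' dev''; field_simp; ring
  rw [e1, e2]
  simp only [dev, logModel]
  linarith

/-- One-sided inequality on the complement of the kernel, averaged over both lags. -/
theorem meanSide_one (F : JacobiFacts S) (K : KernelFacts S) {t g : ℝ}
    (h1 : 0 < t) (h2 : t < π / 2) (hg : 0 < g) :
    2 * g * (meanLog S (π / 2 - t) - meanLog S t - meanCof S + k - k * log g)
      ≤ 2 * meanRicc S t - (meanKer S t - meanKer S (-t)) := by
  have gt := good_of_pos h1 h2
  have gt' := good_neg gt
  have gr : t - π / 2 ∈ Good := by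
    simpa using good_neg (good_of_pos (t := π / 2 - t) (by linarith) (by linarith))
  have gm : π / 2 - t ∈ Good := good_of_pos (by linarith) (by linarith)
  have gp : -(π / 2) - t ∈ Good := by
    have := good_neg (good_pi_sub (t := π / 2 - t) (by linarith) (by linarith))
    rwa [show -(π - (π / 2 - t)) = -(π / 2) - t by ring] at this
  have point : ∀ y, g * ((logAbsDet (S.A (y - t) (y - t + (t - π / 2)))
        - logAbsDet (S.A (y - t) (y - t + t)))
        + (logAbsDet (S.A (y + t) (y + t + (-(π / 2) - t)))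
          - logAbsDet (S.A (y + t) (y + t + -t)))
        + -2 * logCof (kerProj S (y - π / 2)) (S.A (y - π / 2) (y - π / 2 + π / 2)))
        + 2 * g * (k - k * log g)
      ≤ ((ricc S (y - t) (y - t + t)).trace - (kerProj S y * ricc S (y - t) y).trace)
        - ((ricc S (y + t) (y + t + -t)).trace - (kerProj S y * ricc S (y - -t) y).trace) := by
    intro y
    rw [sub_add_cancel y (π / 2), sub_add_cancel y t, sub_neg_eq_add,
      show y - t + (t - π / 2) = y - π / 2 by ring,
      show y + t + (-(π / 2) - t) = y - π / 2 by ring, show y + t + -t = y by ring]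
    set x := y - π / 2 with hx
    have d1 : (S.A (y - t) y).det ≠ 0 := det_ne_lag F (by simpa using gt)
    have d2 : (S.A (y + t) y).det ≠ 0 := det_ne_lag F (by simpa using gt')
    have e1' : (S.A (y - t) x).det ≠ 0 :=
      det_ne_lag F (by rwa [show x - (y - t) = t - π / 2 by rw [hx]; ring])
    have e2' : (S.A (y + t) x).det ≠ 0 :=
      det_ne_lag F (by rwa [show x - (y + t) = -(π / 2) - t by rw [hx]; ring])
    have hN : ∀ b, (S.A b y).det ≠ 0 →
        (S.A x y)ᵀ * ricc S b y - (S.A' x y)ᵀ = -S.A b x * (S.A b y)⁻¹ := by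
      intro b hb
      rw [← F.wronskian x b y, Matrix.sub_mul, Matrix.mul_assoc, Matrix.mul_assoc,
        mul_nonsing_inv _ (isUnit_iff_ne_zero.2 hb), Matrix.mul_one, ← ricc]
    have hdet : ∀ b, (S.A b y).det ≠ 0 → (S.A b x).det ≠ 0 →
        ((S.A x y)ᵀ * ricc S b y - (S.A' x y)ᵀ).det ≠ 0 ∧
        logAbsDet ((S.A x y)ᵀ * ricc S b y - (S.A' x y)ᵀ)
          = logAbsDet (S.A b x) - logAbsDet (S.A b y) := by
      intro b hb hb'
      rw [hN b hb, logAbsDet, det_mul, det_nonsing_inv, Ring.inverse_eq_inv', det_neg]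
      refine ⟨by simp [hb, hb'], ?_⟩
      rw [abs_mul, abs_mul, abs_pow, abs_neg, abs_one, one_pow, one_mul, abs_inv,
        log_mul (abs_ne_zero.2 hb') (inv_ne_zero (abs_ne_zero.2 hb)), log_inv]
      rfl
    have s1 := F.side_fwd y t h1 h2
    have s2 := F.side_bwd y (π / 2 - t) (by linarith) (by linarith)
    rw [← hx] at s1 s2
    rw [show y - (π / 2 - t) + π / 2 = y + t by ring] at s2
    have hsymm : ((S.A x y)ᵀ * S.A' x y)ᵀ = (S.A x y)ᵀ * S.A' x y := by
      have := F.wronskian x x y
      rw [(S.init x).1, neg_zero, sub_eq_zero] at this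
      rw [transpose_mul, transpose_transpose, ← this]
    have hy : x + π / 2 = y := by rw [hx]; ring
    obtain ⟨p1, p2, p3, p4⟩ := K.spec x
    obtain ⟨q1, q2, -, q4⟩ := K.spec y
    have hr := S.rank_half x
    have hiso := K.isometry x
    have him := K.image x
    have hleft := K.left y
    rw [← hx] at hleft
    rw [hy] at p3 hr hiso him
    have main := Lin.sideGoal l k (S.A x y) (S.A' x y) (kerProj S x) (kerProj S y)
      (ricc S (y - t) y) (ricc S (y + t) y) g g rfl hr p1 p2 p4 p3 q1 q2 q4 hleft hiso him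
      hsymm (F.ricc_symm _ _ d1) (F.ricc_symm _ _ d2) (hdet _ d1 e1').1 (hdet _ d2 e2').1 s1 s2
      hg hg
    rw [(hdet _ d1 e1').2, (hdet _ d2 e2').2, Matrix.sub_mul, Matrix.one_mul, Matrix.mul_sub,
      trace_sub, trace_sub, trace_sub] at main
    refine le_of_eq_of_le ?_ (main.trans_eq ?_) <;> ring
  have h_shift : ∀ c : ℝ, Continuous fun y : ℝ => y + c := fun c =>
    continuous_id.add continuous_const
  have cA : ∀ (c : ℝ) {s : ℝ}, s ∈ Good →
      Continuous fun y => logAbsDet (S.A (y + c) (y + c + s)) := fun c s hs =>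
    (continuous_logAbsDet_line F hs).comp (h_shift c)
  have cR : ∀ (c : ℝ) {s : ℝ}, s ∈ Good →
      Continuous fun y => (ricc S (y + c) (y + c + s)).trace := fun c s hs =>
    (continuous_ricc_line F hs).comp (h_shift c)
  have a1 := cA (-t) gr
  have a2 := cA (-t) gt
  have a3 := cA t gp
  have a4 := cA t gt'
  have a5 : Continuous fun y =>
      logCof (kerProj S (y - π / 2)) (S.A (y - π / 2) (y - π / 2 + π / 2)) :=
    (continuous_logCof_line F K).comp (continuous_id.sub continuous_const)
  have r1 := cR (-t) gt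
  have r2 := cR t gt'
  simp only [← sub_eq_add_neg] at a1 a2 r1
  have k1 := continuous_ricc_ker F K gt
  have k2 := continuous_ricc_ker F K gt'
  have key := mean_mono
    (((((a1.fun_sub a2).fun_add (a3.fun_sub a4)).fun_add (a5.const_mul (-2))).const_mul g).fun_add
      continuous_const)
    ((r1.fun_sub k1).fun_sub (r2.fun_sub k2)) point
  rw [mean_add ((((a1.fun_sub a2).fun_add (a3.fun_sub a4)).fun_add (a5.const_mul (-2))).const_mul g)
    continuous_const, mean_const, mean_const_mul,
    mean_add ((a1.fun_sub a2).fun_add (a3.fun_sub a4)) (a5.const_mul (-2)),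
    mean_add (a1.fun_sub a2) (a3.fun_sub a4), mean_sub a1 a2, mean_sub a3 a4, mean_const_mul,
    mean_sub (r1.fun_sub k1) (r2.fun_sub k2), mean_sub r1 k1, mean_sub r2 k2] at key
  simp only [sub_eq_add_neg _ t, sub_eq_add_neg _ (π / 2)] at key
  simp only [mean_shift (periodic_logAbsDet F _), mean_shift (periodic_ricc F _),
    mean_shift (periodic_logCof F K)] at key
  have b1 : mean (fun x => logAbsDet (S.A x (x + (t + -(π / 2))))) = meanLog S (π / 2 - t) := by
    rw [show t + -(π / 2) = -(π / 2 - t) by ring]; exact meanLog_neg F _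
  have b3 : mean (fun x => logAbsDet (S.A x (x + (-(π / 2) + -t)))) = meanLog S (π / 2 - t) := by
    rw [show -(π / 2) + -t = -(π - (π / 2 - t)) by ring]
    exact (meanLog_neg F _).trans (meanLog_pi_sub F (by linarith) (by linarith))
  have b4 : mean (fun x => logAbsDet (S.A x (x + -t))) = meanLog S t := meanLog_neg F t
  have b6 : mean (fun x => (ricc S x (x + -t)).trace) = -meanRicc S t := meanRicc_neg F gt
  rw [b1, b3, b4, b6] at key
  have q0 : mean (fun x => logCof (kerProj S x) (S.A x (x + π / 2))) = meanCof S := rfl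
  have q1 : mean (fun x => logAbsDet (S.A x (x + t))) = meanLog S t := rfl
  have q2 : mean (fun x => (ricc S x (x + t)).trace) = meanRicc S t := rfl
  have q3 : mean (fun x => (kerProj S x * ricc S (x + -t) x).trace) = meanKer S t := by
    simp only [meanKer, sub_eq_add_neg]
  have q4 : mean (fun x => (kerProj S x * ricc S (x - -t) x).trace) = meanKer S (-t) := rfl
  rw [q0, q1, q2, q3, q4] at key
  refine le_of_eq_of_le ?_ (key.trans_eq ?_) <;> ring

/-- The `side_one` field, with endpoint value `meanCof`. -/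
theorem dev_side_one (F : JacobiFacts S) (K : KernelFacts S) {t : ℝ}
    (ht : t ∈ Ioo (0 : ℝ) (π / 2)) :
    0 ≤ sin t * (dev' S t - devKer S t)
      + cos t * (dev S t + meanCof S - dev S (π / 2 - t)) := by
  obtain ⟨hs, hc⟩ := sin_cos_pos_pair ht
  have key := meanSide_one F K ht.1 ht.2 (g := cos t / sin t) (by positivity)
  have key' := mul_le_mul_of_nonneg_left key hs.le
  rw [log_div hc.ne' hs.ne', ← mul_assoc (sin t),
    show sin t * (2 * (cos t / sin t)) = 2 * cos t by field_simp] at key'
  have e1 : sin t * (dev' S t - devKer S t)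
      = sin t * (meanRicc S t - (meanKer S t - meanKer S (-t)) / 2) - k * cos t := by
    unfold dev' devKer; field_simp; ring
  rw [e1]
  simp only [dev, logModel, sin_pi_div_two_sub, cos_pi_div_two_sub, log_mul hs.ne' hc.ne',
    log_mul hc.ne' hs.ne']
  linarith

end Vale.Agent.P231
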