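import Vale.Agent.P231.Point.Pairs
import Vale.Agent.P231.Point.Split
import Vale.Agent.P231.Point.Limits
import Vale.Agent.P231.Final.Main

/-!
The pointwise volume inequality with rigidity for every multiplicity pattern, given the scalar
minimum principle.
-/

namespace Vale.Agent.P231

open Matrix Real Set Filter Topology MeasureTheory

variable {l k : ℕ}

/-- The data of the minimum principle. -/
theorem pointData {S : JacobiSystem l k} (F : JacobiFacts S) (K : KernelFacts S) :
    PointData (dev S) (dev' S) (dev'' S) (devKer S) (devKer' S) (meanCof S) := by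
  have D := scalarData F K
  refine
    { deriv := D.deriv
      deriv' := D.deriv'
      derivp := fun t ht => hasDerivAt_devKer F K ht
      ye_nonneg := D.ye_nonneg
      left := dev_left F
      right := dev_right F K
      growth := ?_
      pair_diff := dev_pair_diff F K
      pair_sum := dev_pair_sum F K
      ker_sum := fun t ht => dev_ker_sum F K ht
      side_one := fun t ht => dev_side_one F K ht
      split := fun t ht => dev_split F K ht
      second := ?_ }
  · obtain ⟨C, hC⟩ := D.growth
    exact ⟨C, fun t ht => (hC t ht).2.2⟩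
  · intro t ht
    have f := D.fwd t ht
    have s := D.straddle t ht
    have hye := D.ye_nonneg
    have h : 2 * devGram S t * sin t ^ 2 ≤
        (dev S t + dev S (π / 2 - t) + sin t * cos t * (dev' S t + dev' S (π / 2 - t)))
          * sin t ^ 2 :=
      mul_le_mul_of_nonneg_right (by linarith) (sq_nonneg _)
    linarith

/-- The pointwise volume inequality. -/
theorem model_le_meanJacobian (hP : PointGoal) (hl : 1 ≤ l) (S : JacobiSystem l k) :
    ∀ t ∈ Icc (0 : ℝ) (π / 2), modelJacobian l k t ≤ meanJacobian S t := by
  have hpi := pi_pos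
  have F := jacobiFacts S
  have hJ0 : ∀ t, 0 ≤ meanJacobian S t := fun t =>
    div_nonneg (intervalIntegral.integral_nonneg hpi.le fun x _ => abs_nonneg _) hpi.le
  intro t ht
  rcases eq_or_lt_of_le ht.1 with h0 | h0
  · have : modelJacobian l k t = 0 := by
      simp [modelJacobian, ← h0, zero_pow (show l ≠ 0 by omega)]
    rw [this]; exact hJ0 t
  rcases eq_or_lt_of_le ht.2 with h1 | h1
  · have : modelJacobian l k t = 0 := by
      simp [modelJacobian, h1, zero_pow (show l ≠ 0 by omega)]
    rw [this]; exact hJ0 t
  have hy := hP (pointData F (kernelFacts S F)) t ⟨h0, h1⟩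
  have h2 := (exp_meanLog_le F (good_of_pos h0 h1)).1
  have h3 : exp (meanLog S t) = modelJacobian l k t * exp (dev S t) := by
    rw [← exp_logModel ⟨h0, h1⟩, ← exp_add]; congr 1; unfold dev; ring
  have h4 := mul_le_mul_of_nonneg_left (one_le_exp hy)
    (modelJacobian_pos (l := l) (k := k) ⟨h0, h1⟩).le
  linarith

/-- **Pointwise volume inequality with rigidity**, for every `(l, k)`. -/
theorem pointwise_rigidity (hP : PointGoal) (hl : 1 ≤ l) (S : JacobiSystem l k) :
    (∀ t ∈ Icc (0 : ℝ) (π / 2), modelJacobian l k t ≤ meanJacobian S t) ∧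
    ((∫ t in (0 : ℝ)..(π / 2), modelJacobian l k t) ≤ ∫ t in (0 : ℝ)..(π / 2), meanJacobian S t) ∧
    ((∫ t in (0 : ℝ)..(π / 2), modelJacobian l k t) = (∫ t in (0 : ℝ)..(π / 2), meanJacobian S t) ↔
      IsModelCurvature S) := by
  have hpi := pi_pos
  have hH : (0 : ℝ) < π / 2 := by positivity
  have F := jacobiFacts S
  have K := kernelFacts S F
  have hle := model_le_meanJacobian hP hl S
  have hJ := continuous_meanJacobian F
  have hw : Continuous (modelJacobian l k) := by unfold modelJacobian; fun_prop
  refine ⟨hle, intervalIntegral.integral_mono_on hH.le (hw.intervalIntegrable _ _)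
    (hJ.intervalIntegrable _ _) hle, fun heq => ?_, fun hmod => ?_⟩
  · have hzero : ∀ t ∈ Ioo (0 : ℝ) (π / 2), modelJacobian l k t = meanJacobian S t := by
      intro t ht
      by_contra hne
      exact (intervalIntegral.integral_lt_integral_of_continuousOn_of_le_of_exists_lt hH
        hw.continuousOn hJ.continuousOn (fun s hs => hle s (Ioc_subset_Icc_self hs))
        ⟨t, Ioo_subset_Icc_self ht,
          lt_of_le_of_ne (hle t (Ioo_subset_Icc_self ht)) hne⟩).ne heq
    apply isModelCurvature_of_pointwise F K (scalarData F K)
    intro t ht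
    have hy := hP (pointData F K) t ht
    have h2 := exp_meanLog_le F (good_of_pos ht.1 ht.2)
    have h3 : exp (meanLog S t) = modelJacobian l k t * exp (dev S t) := by
      rw [← exp_logModel ht, ← exp_add]; congr 1; unfold dev; ring
    have hwp := modelJacobian_pos (l := l) (k := k) ht
    have hy0 : dev S t = 0 := by
      refine le_antisymm ?_ hy
      by_contra hpos
      rw [not_le] at hpos
      have := mul_lt_mul_of_pos_left (one_lt_exp_iff.2 hpos) hwp
      linarith [hzero t ht, h2.1]
    refine ⟨hy0, h2.2 ?_⟩
    rw [h3, hy0, exp_zero, mul_one, hzero t ht]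
  · apply intervalIntegral.integral_congr
    intro t ht
    rw [uIcc_of_le hH.le] at ht
    show modelJacobian l k t = meanJacobian S t
    rw [meanJacobian_of_isModel S hmod, abs_of_nonneg]
    unfold modelJacobian
    have hs := sin_nonneg_of_nonneg_of_le_pi ht.1 (by linarith [ht.2])
    have hc := cos_nonneg_of_mem_Icc (x := t) ⟨by linarith [ht.1], ht.2⟩
    positivity

end Vale.Agent.P231
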