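import Vale.Agent.P231.Point.Spec
import Vale.Agent.P231.Jacobi.Order
import Vale.Agent.P231.Point.Tangent

/-!
The averaged pair inequalities of the pointwise argument.
-/

namespace Vale.Agent.P231

open Matrix Real Set Filter Topology
open scoped Matrix.Norms.Operator

variable {l k : ℕ} {S : JacobiSystem l k}

theorem good_of_abs {a : ℝ} (h0 : a ≠ 0) (h : |a| < π / 2) : a ∈ Good :=
  ⟨h0, by linarith [pi_pos], h.ne⟩

/-- Two Riccati operators with lags in `(-π / 2, π / 2)`, less than `π / 2` apart, are ordered. -/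
theorem pair_posDef (S : JacobiSystem l k) (F : JacobiFacts S) (x : ℝ) {a b : ℝ}
    (ha : a ≠ 0) (hb : b ≠ 0) (haH : |a| < π / 2) (hbH : |b| < π / 2) (hab : b - a ≠ 0)
    (habH : |b - a| < π / 2) (hord : 0 < a⁻¹ - b⁻¹) :
    (ricc S (x - a) x - ricc S (x - b) x).PosDef := by
  set G : ℝ → Mat (l + k) := fun s => ricc S (x - s * a) x - ricc S (x - s * b) x with hG
  have hne : ∀ s ∈ Ioc (0 : ℝ) 1, ∀ c, c ≠ 0 → |c| < π / 2 → ∀ z,
      (S.A (z - s * c) z).det ≠ 0 := by
    intro s hs c hc hcH z
    refine det_ne_lag F ?_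
    rw [sub_sub_cancel]
    refine good_of_abs (mul_ne_zero hs.1.ne' hc) ?_
    rw [abs_mul, abs_of_pos hs.1]
    exact (mul_le_of_le_one_left (abs_nonneg c) hs.2).trans_lt hcH
  have hdet : ∀ s ∈ Ioc (0 : ℝ) 1, (G s).det ≠ 0 := by
    intro s hs h0
    have e := congrArg Matrix.det
      (ricc_sub S (x - s * a) (x - s * b) x (hne s hs a ha haH x) (hne s hs b hb hbH x))
    simp only [hG] at h0
    rw [det_mul, det_mul, h0, mul_zero, zero_mul] at e
    have := hne s hs (b - a) hab habH (x - s * a)
    rw [show x - s * a - s * (b - a) = x - s * b by ring] at this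
    exact this e.symm
  have hpsd : (G 1).PosSemidef := by
    refine posSemidef_end (fun s hs => ?_) (fun s hs => ?_)
      (fun s hs => hdet s ⟨hs.1, hs.2.le⟩) ?_
    · exact (continuousAt_ricc S (f := fun r => x - r * a) (g := fun _ => x) (by fun_prop)
        continuousAt_const (hne s hs a ha haH x)).sub
        (continuousAt_ricc S (f := fun r => x - r * b) (g := fun _ => x) (by fun_prop)
          continuousAt_const (hne s hs b hb hbH x))
    · simp only [hG, transpose_sub]
      rw [ricc_symm_A S _ _ (hne s hs a ha haH x), ricc_symm_A S _ _ (hne s hs b hb hbH x)]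
    · have hl := (tendsto_smul_ricc S x a ha).sub (tendsto_smul_ricc S x b hb)
      have hev := eventually_pos_form hl fun v hv => by
        rw [← sub_smul, Matrix.smul_mulVec, Matrix.one_mulVec, dotProduct_smul, smul_eq_mul]
        exact mul_pos hord (lt_of_le_of_ne (Finset.sum_nonneg fun i _ => mul_self_nonneg _)
          (fun h => hv (dotProduct_self_eq_zero.1 h.symm)))
      filter_upwards [hev, self_mem_nhdsWithin] with s hs hs0 v hv
      have := hs v hv
      rw [← smul_sub, Matrix.smul_mulVec, dotProduct_smul, smul_eq_mul] at this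
      exact pos_of_mul_pos_right this (mem_Ioi.1 hs0).le
  have h1 : G 1 = ricc S (x - a) x - ricc S (x - b) x := by simp [hG]
  exact h1 ▸ hpsd.posDef_iff_det_ne_zero.2 (hdet 1 ⟨one_pos, le_rfl⟩)

theorem periodic_kerRicc (F : JacobiFacts S) (K : KernelFacts S) (c : ℝ) :
    Function.Periodic (fun x => (kerProj S x * ricc S (x - c) x).trace) π := fun x => by
  show (kerProj S (x + π) * ricc S (x + π - c) (x + π)).trace = _
  rw [show x + π - c = x - c + π by ring, ricc_add_pi F, K.periodic, conj_mul, trace_conj_hol]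

theorem continuous_kerRicc (F : JacobiFacts S) (K : KernelFacts S) {c : ℝ} (hc : c ∈ Good) :
    Continuous fun x => (kerProj S x * ricc S (x - c) x).trace :=
  (K.cont.matrix_mul (continuous_iff_continuousAt.2 fun x =>
    ContinuousAt.comp (g := fun p : ℝ × ℝ => ricc S p.1 p.2) (f := fun x => (x - c, x))
      (continuousAt_ricc_hol F (det_ne_lag F (by simpa using hc))) (by fun_prop))).matrix_trace

theorem mean_logAbsDet_shift (F : JacobiFacts S) (t c : ℝ) :
    mean (fun x => logAbsDet (S.A (x + c) (x + c + t))) = meanLog S t :=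
  mean_shift (periodic_logAbsDet F t) c

/-- The averaged tangent of `log det` at one pair of lags. -/
theorem meanPair_le (F : JacobiFacts S) (K : KernelFacts S) {a b α β : ℝ}
    (ha : a ≠ 0) (hb : b ≠ 0) (haH : |a| < π / 2) (hbH : |b| < π / 2) (hab : b - a ≠ 0)
    (habH : |b - a| < π / 2) (hord : 0 < a⁻¹ - b⁻¹) (hα : 0 < α) (hβ : 0 < β) :
    meanLog S (b - a) - meanLog S a - meanLog S b
      ≤ (meanKer S a - meanKer S b) / α
        + ((meanRicc S a - meanRicc S b) - (meanKer S a - meanKer S b)) / β
        - ((l : ℝ) + k) + l * log α + k * log β := by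
  have ga := good_of_abs ha haH
  have gb := good_of_abs hb hbH
  have gd := good_of_abs hab habH
  have point : ∀ x, logAbsDet (S.A (x + -b) (x + -b + (b - a)))
      - logAbsDet (S.A (x + -a) (x + -a + a)) - logAbsDet (S.A (x + -b) (x + -b + b))
      ≤ ((kerProj S x * ricc S (x - a) x).trace - (kerProj S x * ricc S (x - b) x).trace) / α
        + (((ricc S (x + -a) (x + -a + a)).trace - (ricc S (x + -b) (x + -b + b)).trace)
            - ((kerProj S x * ricc S (x - a) x).trace - (kerProj S x * ricc S (x - b) x).trace)) / β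
        + (-((l : ℝ) + k) + l * log α + k * log β) := by
    intro x
    simp only [← sub_eq_add_neg, sub_add_cancel]
    rw [show x - b + (b - a) = x - a by ring]
    have hD := pair_posDef S F x ha hb haH hbH hab habH hord
    obtain ⟨p1, p2, -, p4⟩ := K.spec x
    have main := Lin.log_det_split_le (l := l) (k := k) hD p1 p2 p4 hα hβ
    rw [Matrix.sub_mul, Matrix.one_mul, trace_sub, trace_sub, Matrix.mul_sub, trace_sub] at main
    have da : (S.A (x - a) x).det ≠ 0 := det_ne_lag F (by simpa using ga)
    have db : (S.A (x - b) x).det ≠ 0 := det_ne_lag F (by simpa using gb)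
    have e := congrArg Matrix.det (ricc_sub S (x - a) (x - b) x da db)
    rw [det_mul, det_mul, det_transpose] at e
    have e' : logAbsDet (S.A (x - b) (x - a)) = logAbsDet (S.A (x - a) x)
        + log (ricc S (x - a) x - ricc S (x - b) x).det + logAbsDet (S.A (x - b) x) := by
      simp only [logAbsDet, ← e, abs_mul]
      rw [log_mul (mul_ne_zero (abs_ne_zero.2 da) (abs_ne_zero.2 hD.det_pos.ne'))
        (abs_ne_zero.2 db), log_mul (abs_ne_zero.2 da) (abs_ne_zero.2 hD.det_pos.ne'),
        abs_of_pos hD.det_pos]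
    linarith
  have c0 := (continuous_logAbsDet_line F gd).comp (continuous_id.add (continuous_const (y := -b)))
  have c1 := (continuous_logAbsDet_line F ga).comp (continuous_id.add (continuous_const (y := -a)))
  have c2 := (continuous_logAbsDet_line F gb).comp (continuous_id.add (continuous_const (y := -b)))
  have c3 := continuous_kerRicc F K ga
  have c4 := continuous_kerRicc F K gb
  have c5 := (continuous_ricc_line F ga).comp (continuous_id.add (continuous_const (y := -a)))
  have c6 := (continuous_ricc_line F gb).comp (continuous_id.add (continuous_const (y := -b)))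
  simp only [Function.comp_def, id_eq, Pi.add_apply] at c0 c1 c2 c5 c6
  have key := mean_mono
    (f := fun x => ∑ i, (![1, -1, -1, -(α⁻¹ - β⁻¹), α⁻¹ - β⁻¹, -β⁻¹, β⁻¹] : Fin 7 → ℝ) i *
      (![fun x => logAbsDet (S.A (x + -b) (x + -b + (b - a))),
        fun x => logAbsDet (S.A (x + -a) (x + -a + a)),
        fun x => logAbsDet (S.A (x + -b) (x + -b + b)),
        fun x => (kerProj S x * ricc S (x - a) x).trace,
        fun x => (kerProj S x * ricc S (x - b) x).trace,
        fun x => (ricc S (x + -a) (x + -a + a)).trace,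
        fun x => (ricc S (x + -b) (x + -b + b)).trace] : Fin 7 → ℝ → ℝ) i x
        + -(-((l : ℝ) + k) + l * log α + k * log β))
    (g := fun _ => 0) (Continuous.add (continuous_finsetSum _ fun i _ =>
      Continuous.const_mul (by fin_cases i <;> assumption) _) continuous_const) continuous_const
    (fun x => by
      have := point x
      simp only [Fin.sum_univ_seven, Matrix.cons_val]
      simp only [div_eq_inv_mul] at this
      linarith)
  rw [mean_const, mean_lin (by intro i; fin_cases i <;> assumption)] at key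
  simp only [Fin.sum_univ_seven, Matrix.cons_val, mean_logAbsDet_shift F,
    mean_shift (periodic_ricc F a) (-a), mean_shift (periodic_ricc F b) (-b)] at key
  simp only [div_eq_inv_mul, meanKer, meanRicc] at key ⊢
  linarith

/-- The model part of the pair identity. -/
theorem log_model_pair {t r d α β : ℝ} (ht : t ∈ Ioo (0 : ℝ) (π / 2))
    (hr : r ∈ Ioo (0 : ℝ) (π / 2)) (hd : d ∈ Ioo (0 : ℝ) (π / 2))
    (hα : α = sin d * cos d / (sin t * cos t * (sin r * cos r)))
    (hβ : β = sin d / (sin t * sin r)) :
    (l : ℝ) * log α + k * log β = logModel l k d - logModel l k t - logModel l k r := by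
  obtain ⟨s1, c1⟩ := sin_cos_pos_pair ht
  obtain ⟨s2, c2⟩ := sin_cos_pos_pair hr
  obtain ⟨s3, c3⟩ := sin_cos_pos_pair hd
  simp only [hα, hβ, logModel]
  rw [log_div (by positivity) (by positivity), log_div (by positivity) (by positivity),
    log_mul (x := sin t * cos t) (by positivity) (by positivity),
    log_mul (x := sin t) (y := sin r) (by positivity) (by positivity)]
  ring

theorem dev_pair_diff (F : JacobiFacts S) (K : KernelFacts S) (t r : ℝ) (ht : 0 < t)
    (htr : t < r) (hr : r < π / 2) :
    0 ≤ sin (2 * (r - t)) * (dev S t + dev S r - dev S (r - t))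
      + 2 * (sin t * sin r * cos (r - t)) * (dev' S t - dev' S r)
      - 2 * (sin t ^ 2 * sin r ^ 2) * (devKer S t - devKer S r) := by
  have ht' : t ∈ Ioo (0 : ℝ) (π / 2) := ⟨ht, htr.trans hr⟩
  have hr' : r ∈ Ioo (0 : ℝ) (π / 2) := ⟨ht.trans htr, hr⟩
  have hd' : r - t ∈ Ioo (0 : ℝ) (π / 2) := ⟨by linarith, by linarith⟩
  obtain ⟨s1, c1⟩ := sin_cos_pos_pair ht'
  obtain ⟨s2, c2⟩ := sin_cos_pos_pair hr'
  obtain ⟨s3, c3⟩ := sin_cos_pos_pair hd'
  have gt := good_of_pos ht ht'.2
  have gr := good_of_pos hr'.1 hr
  set α := sin (r - t) * cos (r - t) / (sin t * cos t * (sin r * cos r)) with hα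
  set β := sin (r - t) / (sin t * sin r) with hβ
  have A1 := meanPair_le F K (a := t) (b := r) (α := α) (β := β) ht.ne' hr'.1.ne'
    (by rw [abs_of_pos ht]; exact ht'.2) (by rw [abs_of_pos hr'.1]; exact hr) hd'.1.ne'
    (by rw [abs_of_pos hd'.1]; exact hd'.2)
    (sub_pos.2 (inv_strictAnti₀ ht htr)) (by positivity) (by positivity)
  have A2 := meanPair_le F K (a := -r) (b := -t) (α := α) (β := β) (neg_ne_zero.2 hr'.1.ne')
    (neg_ne_zero.2 ht.ne') (by rw [abs_neg, abs_of_pos hr'.1]; exact hr)
    (by rw [abs_neg, abs_of_pos ht]; exact ht'.2)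
    (by rw [show -t - -r = r - t by ring]; exact hd'.1.ne')
    (by rw [show -t - -r = r - t by ring, abs_of_pos hd'.1]; exact hd'.2)
    (by rw [inv_neg, inv_neg, sub_neg_eq_add, neg_add_eq_sub]
        exact sub_pos.2 (inv_strictAnti₀ ht htr))
    (by positivity) (by positivity)
  rw [show -t - -r = r - t by ring, meanLog_neg F, meanLog_neg F, meanRicc_neg F gt,
    meanRicc_neg F gr] at A2
  have hL := log_model_pair (l := l) (k := k) ht' hr' hd' hα hβ
  have ea : (cos t ^ 2 - sin t ^ 2) / (sin t * cos t)
      - (cos r ^ 2 - sin r ^ 2) / (sin r * cos r) = α := by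
    rw [hα, sin_sub, cos_sub]
    field_simp
    ring
  have eb : cos t / sin t - cos r / sin r = β := by
    rw [hβ, sin_sub]
    field_simp
  have eK : (meanKer S t - meanKer S r + (meanKer S (-r) - meanKer S (-t))) / 2
      = devKer S t - devKer S r + l * α := by
    rw [← ea]; simp only [devKer]; ring
  have eR : meanRicc S t - meanRicc S r = dev' S t - dev' S r + l * α + k * β := by
    rw [← ea, ← eb]; simp only [dev']; ring
  have hαp : 0 < α := by positivity
  have hβp : 0 < β := by positivity
  have key : dev S (r - t) - dev S t - dev S r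
      ≤ (devKer S t - devKer S r) / α
        + ((dev' S t - dev' S r) - (devKer S t - devKer S r)) / β := by
    have e : ∀ x y : ℝ, (x + l * α) / α + (y - x + k * β) / β
        = x / α + (y - x) / β + ((l : ℝ) + k) := fun x y => by field_simp; ring
    have := e (devKer S t - devKer S r) (dev' S t - dev' S r)
    rw [← eK, show dev' S t - dev' S r - (devKer S t - devKer S r) + k * β
        = (meanRicc S t - meanRicc S r)
          - (meanKer S t - meanKer S r + (meanKer S (-r) - meanKer S (-t))) / 2 by
      rw [eK, eR]; ring] at this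
    simp only [div_eq_inv_mul] at this A1 A2 ⊢
    simp only [dev]
    linarith
  have key' := mul_le_mul_of_nonneg_left key (mul_pos (mul_pos two_pos s3) c3).le
  have f1 : ∀ z, 2 * sin (r - t) * cos (r - t) * (z / α)
      = 2 * (sin t * cos t * (sin r * cos r)) * z := fun z => by
    rw [hα]; field_simp
  have f2 : ∀ z, 2 * sin (r - t) * cos (r - t) * (z / β)
      = 2 * (sin t * sin r * cos (r - t)) * z := fun z => by
    rw [hβ]; field_simp
  rw [mul_add, f1, f2] at key'
  rw [sin_two_mul]
  have e3 : 2 * (sin t ^ 2 * sin r ^ 2) * (devKer S t - devKer S r)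
      = 2 * (sin t * sin r * cos (r - t)) * (devKer S t - devKer S r)
        - 2 * (sin t * cos t * (sin r * cos r)) * (devKer S t - devKer S r) := by
    rw [cos_sub]; ring
  rw [e3]
  linarith

theorem dev_pair_sum (F : JacobiFacts S) (K : KernelFacts S) (t r : ℝ) (ht : 0 < t)
    (hr : 0 < r) (hsum : t + r < π / 2) :
    0 ≤ sin (2 * (r + t)) * (dev S t + dev S r - dev S (r + t))
      + 2 * (sin t * sin r * cos (r + t)) * (dev' S t + dev' S r)
      + 2 * (sin t ^ 2 * sin r ^ 2) * (devKer S t + devKer S r) := by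
  have ht' : t ∈ Ioo (0 : ℝ) (π / 2) := ⟨ht, by linarith⟩
  have hr' : r ∈ Ioo (0 : ℝ) (π / 2) := ⟨hr, by linarith⟩
  have hd' : r + t ∈ Ioo (0 : ℝ) (π / 2) := ⟨by linarith, by linarith⟩
  obtain ⟨s1, c1⟩ := sin_cos_pos_pair ht'
  obtain ⟨s2, c2⟩ := sin_cos_pos_pair hr'
  obtain ⟨s3, c3⟩ := sin_cos_pos_pair hd'
  have gt := good_of_pos ht ht'.2
  have gr := good_of_pos hr hr'.2
  set α := sin (r + t) * cos (r + t) / (sin t * cos t * (sin r * cos r)) with hα
  set β := sin (r + t) / (sin t * sin r) with hβ
  have A1 := meanPair_le F K (a := t) (b := -r) (α := α) (β := β) ht.ne' (neg_ne_zero.2 hr.ne')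
    (by rw [abs_of_pos ht]; exact ht'.2) (by rw [abs_neg, abs_of_pos hr]; exact hr'.2)
    (by linarith) (by rw [show -r - t = -(r + t) by ring, abs_neg, abs_of_pos hd'.1]; exact hd'.2)
    (by rw [inv_neg, sub_neg_eq_add]; positivity) (by positivity) (by positivity)
  have A2 := meanPair_le F K (a := r) (b := -t) (α := α) (β := β) hr.ne' (neg_ne_zero.2 ht.ne')
    (by rw [abs_of_pos hr]; exact hr'.2) (by rw [abs_neg, abs_of_pos ht]; exact ht'.2)
    (by linarith) (by rw [show -t - r = -(r + t) by ring, abs_neg, abs_of_pos hd'.1]; exact hd'.2)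
    (by rw [inv_neg, sub_neg_eq_add]; positivity) (by positivity) (by positivity)
  rw [show -r - t = -(r + t) by ring, meanLog_neg F, meanLog_neg F, meanRicc_neg F gr] at A1
  rw [show -t - r = -(r + t) by ring, meanLog_neg F, meanLog_neg F, meanRicc_neg F gt] at A2
  have hL := log_model_pair (l := l) (k := k) ht' hr' hd' hα hβ
  have ea : (cos t ^ 2 - sin t ^ 2) / (sin t * cos t)
      + (cos r ^ 2 - sin r ^ 2) / (sin r * cos r) = α := by
    rw [hα, sin_add, cos_add]
    field_simp
    ring
  have eb : cos t / sin t + cos r / sin r = β := by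
    rw [hβ, sin_add]
    field_simp
  have eK : (meanKer S t - meanKer S (-r) + (meanKer S r - meanKer S (-t))) / 2
      = devKer S t + devKer S r + l * α := by
    rw [← ea]; simp only [devKer]; ring
  have eR : meanRicc S t + meanRicc S r = dev' S t + dev' S r + l * α + k * β := by
    rw [← ea, ← eb]; simp only [dev']; ring
  have hαp : 0 < α := by positivity
  have hβp : 0 < β := by positivity
  have key : dev S (r + t) - dev S t - dev S r
      ≤ (devKer S t + devKer S r) / α
        + ((dev' S t + dev' S r) - (devKer S t + devKer S r)) / β := by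
    have e : ∀ x y : ℝ, (x + l * α) / α + (y - x + k * β) / β
        = x / α + (y - x) / β + ((l : ℝ) + k) := fun x y => by field_simp; ring
    have := e (devKer S t + devKer S r) (dev' S t + dev' S r)
    rw [← eK, show dev' S t + dev' S r - (devKer S t + devKer S r) + k * β
        = (meanRicc S t + meanRicc S r)
          - (meanKer S t - meanKer S (-r) + (meanKer S r - meanKer S (-t))) / 2 by
      rw [eK, eR]; ring] at this
    simp only [div_eq_inv_mul] at this A1 A2 ⊢
    simp only [dev]
    linarith
  have key' := mul_le_mul_of_nonneg_left key (mul_pos (mul_pos two_pos s3) c3).le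
  have f1 : ∀ z, 2 * sin (r + t) * cos (r + t) * (z / α)
      = 2 * (sin t * cos t * (sin r * cos r)) * z := fun z => by
    rw [hα]; field_simp
  have f2 : ∀ z, 2 * sin (r + t) * cos (r + t) * (z / β)
      = 2 * (sin t * sin r * cos (r + t)) * z := fun z => by
    rw [hβ]; field_simp
  rw [mul_add, f1, f2] at key'
  rw [sin_two_mul]
  have e3 : 2 * (sin t ^ 2 * sin r ^ 2) * (devKer S t + devKer S r)
      = 2 * (sin t * cos t * (sin r * cos r)) * (devKer S t + devKer S r)
        - 2 * (sin t * sin r * cos (r + t)) * (devKer S t + devKer S r) := by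
    rw [cos_add]; ring
  rw [e3]
  linarith

theorem meanKer_straddle (F : JacobiFacts S) (K : KernelFacts S) {t : ℝ}
    (ht : t ∈ Ioo (0 : ℝ) (π / 2)) : meanKer S (-(π / 2 - t)) ≤ meanKer S t := by
  have hr := mem_flip ht
  refine mean_mono (continuous_kerRicc F K (good_neg (good_of_pos hr.1 hr.2)))
    (continuous_kerRicc F K (good_of_pos ht.1 ht.2)) fun x => ?_
  have hD := F.straddle_psd x t ht.1 ht.2
  obtain ⟨p1, p2, -, -⟩ := K.spec x
  have h := (hD.conjTranspose_mul_mul_same (kerProj S x)).trace_nonneg
  rw [conjTranspose_eq_transpose_of_trivial, p2, trace_mul_comm, ← Matrix.mul_assoc, p1,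
    Matrix.mul_sub, trace_sub, show x - t + π / 2 = x - -(π / 2 - t) by ring] at h
  linarith

theorem dev_ker_sum (F : JacobiFacts S) (K : KernelFacts S) {t : ℝ}
    (ht : t ∈ Ioo (0 : ℝ) (π / 2)) : 0 ≤ devKer S t + devKer S (π / 2 - t) := by
  have a := meanKer_straddle F K ht
  have b := meanKer_straddle F K (mem_flip ht)
  rw [show π / 2 - (π / 2 - t) = t by ring] at b
  obtain ⟨hs, hc⟩ := sin_cos_pos_pair ht
  simp only [devKer, sin_pi_div_two_sub, cos_pi_div_two_sub]
  have e : (sin t ^ 2 - cos t ^ 2) / (cos t * sin t)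
      = -((cos t ^ 2 - sin t ^ 2) / (sin t * cos t)) := by field_simp; ring
  rw [e]
  linarith

end Vale.Agent.P231
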