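import Mathlib

/-!
Bernstein certificates for the two polynomial inequalities of the minimum principle, on
`W * (2 + a) ≤ 1` (`polyB`) and on `1 ≤ W * (2 + a)`, `W ≤ 1` (`polyA`).
-/

namespace Vale.Agent.P231.Point

/-- The common part of the two kernels. -/
noncomputable def polyPert (a W : ℝ) : ℝ :=
  (-(W ^ 5 * (1 + a + W * (2 + a - a * a))) - a ^ 4 * W * (1 + a + W * (2 + a - a * a))
    + 4 * (W ^ 4 * (a + W) - a ^ 4 * (a + W)) * ((1 + a) * (1 + W))) * (1 + a * W)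
  + (2 * (2 * a ^ 5 + 3 * a ^ 4 * W) - 8 * W ^ 3 * (a + W) ^ 2 - 2 * a * a * W ^ 3)
      * ((1 + a) * (1 + W) * (1 + W))

/-- The kernel where the mirrored weight is constant. -/
noncomputable def polyA (a W : ℝ) : ℝ :=
  11 * W * (1 + a + W * (2 + a - a * a)) * (1 + a * W) + polyPert a W
    - 11 / 2 * ((1 + a) * (1 + W) * (1 + W)) * (1 - (a * W) ^ 4 / 11) * (1 + a * W)

/-- A bound for the kernel where the mirrored weight varies. -/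
noncomputable def polyB (a W : ℝ) : ℝ :=
  (11 * W * (1 + a + W * (2 + a - a * a)) * (1 + a * W) + polyPert a W) * (1 + 2 * a - a * W)
      * (1 + a)
    - W * (1 + W) ^ 2 * (1 + a * W) * ((1 + a) ^ 4 * (11 - (W * (2 + a)) ^ 4)
      - a ^ 4 * (1 - W) ^ 4)

/-- Bernstein coefficient `0` of `polyA`. -/
noncomputable def coefA0 (a : ℝ) : ℝ :=
    464 + 4392 * a + 14912 * a ^ 2 + 26064 * a ^ 3 + 26024 * a ^ 4 + 13824 * a ^ 5 + 1090 *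
    a ^ 6 - 3090 * a ^ 7 - 422 * a ^ 8 + 2496 * a ^ 9 + 2618 * a ^ 10 + 1326 * a ^ 11 + 382
    * a ^ 12 + 60 * a ^ 13 + 4 * a ^ 14

theorem coefA0_nonneg {a : ℝ} (h0 : 0 ≤ a) (h1 : a ≤ 1) : 0 ≤ coefA0 a := by
  have hb : 0 ≤ 1 - a := by linarith
  have e : coefA0 a =
      464 * (1 - a) ^ 15 + 11352 * a ^ 1 * (1 - a) ^ 14 + 125120 * a ^ 2 * (1 - a) ^ 13 +
      830712 * a ^ 3 * (1 - a) ^ 12 + 3733976 * a ^ 4 * (1 - a) ^ 11 + 12074928 * a ^ 5 * (1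
      - a) ^ 10 + 29081914 * a ^ 6 * (1 - a) ^ 9 + 53191200 * a ^ 7 * (1 - a) ^ 8 + 74551762
      * a ^ 8 * (1 - a) ^ 7 + 80114334 * a ^ 9 * (1 - a) ^ 6 + 65500376 * a ^ 10 * (1 - a) ^
      5 + 40042598 * a ^ 11 * (1 - a) ^ 4 + 17747096 * a ^ 12 * (1 - a) ^ 3 + 5401792 * a ^
      13 * (1 - a) ^ 2 + 1016352 * a ^ 14 * (1 - a) ^ 1 + 90144 * a ^ 15 := by
    unfold coefA0; ring
  rw [e]; positivity

/-- Bernstein coefficient `1` of `polyA`. -/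
noncomputable def coefA1 (a : ℝ) : ℝ :=
    2248 + 29240 * a + 113854 * a ^ 2 + 219142 * a ^ 3 + 238238 * a ^ 4 + 138614 * a ^ 5 +
    16027 * a ^ 6 - 31470 * a ^ 7 - 7388 * a ^ 8 + 24280 * a ^ 9 + 28267 * a ^ 10 + 15646 *
    a ^ 11 + 5086 * a ^ 12 + 976 * a ^ 13 + 100 * a ^ 14 + 4 * a ^ 15

theorem coefA1_nonneg {a : ℝ} (h0 : 0 ≤ a) (h1 : a ≤ 1) : 0 ≤ coefA1 a := by
  have hb : 0 ≤ 1 - a := by linarith
  have e : coefA1 a =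
      2248 * (1 - a) ^ 15 + 62960 * a ^ 1 * (1 - a) ^ 14 + 759254 * a ^ 2 * (1 - a) ^ 13 +
      5382924 * a ^ 3 * (1 - a) ^ 12 + 25460434 * a ^ 4 * (1 - a) ^ 11 + 85804832 * a ^ 5 *
      (1 - a) ^ 10 + 213911827 * a ^ 6 * (1 - a) ^ 9 + 402938661 * a ^ 7 * (1 - a) ^ 8 +
      579321532 * a ^ 8 * (1 - a) ^ 7 + 636532200 * a ^ 9 * (1 - a) ^ 6 + 530652351 * a ^ 10
      * (1 - a) ^ 5 + 330025243 * a ^ 11 * (1 - a) ^ 4 + 148543942 * a ^ 12 * (1 - a) ^ 3 +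
      45879228 * a ^ 13 * (1 - a) ^ 2 + 8767320 * a ^ 14 * (1 - a) ^ 1 + 792864 * a ^ 15 := by
    unfold coefA1; ring
  rw [e]; positivity

/-- Bernstein coefficient `2` of `polyA`. -/
noncomputable def coefA2 (a : ℝ) : ℝ :=
    3264 + 84852 * a + 390944 * a ^ 2 + 834037 * a ^ 3 + 989915 * a ^ 4 + 636895 * a ^ 5 +
    113784 * a ^ 6 - 125353 * a ^ 7 - 39165 * a ^ 8 + 103473 * a ^ 9 + 129576 * a ^ 10 +
    75827 * a ^ 11 + 26321 * a ^ 12 + 5521 * a ^ 13 + 645 * a ^ 14 + 32 * a ^ 15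

theorem coefA2_nonneg {a : ℝ} (h0 : 0 ≤ a) (h1 : a ≤ 1) : 0 ≤ coefA2 a := by
  have hb : 0 ≤ 1 - a := by linarith
  have e : coefA2 a =
      3264 * (1 - a) ^ 15 + 133812 * a ^ 1 * (1 - a) ^ 14 + 1921592 * a ^ 2 * (1 - a) ^ 13 +
      15122961 * a ^ 3 * (1 - a) ^ 12 + 76833479 * a ^ 4 * (1 - a) ^ 11 + 273121030 * a ^ 5
      * (1 - a) ^ 10 + 710151183 * a ^ 6 * (1 - a) ^ 9 + 1384702592 * a ^ 7 * (1 - a) ^ 8 +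
      2049786697 * a ^ 8 * (1 - a) ^ 7 + 2309622938 * a ^ 9 * (1 - a) ^ 6 + 1968460963 * a ^
      10 * (1 - a) ^ 5 + 1248652488 * a ^ 11 * (1 - a) ^ 4 + 572294909 * a ^ 12 * (1 - a) ^
      3 + 179861102 * a ^ 13 * (1 - a) ^ 2 + 34995372 * a ^ 14 * (1 - a) ^ 1 + 3230568 * a ^
      15 := by
    unfold coefA2; ring
  rw [e]; positivity

/-- Bernstein coefficient `3` of `polyA`. -/
noncomputable def coefA3 (a : ℝ) : ℝ :=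
    440 + 154644 * a + 830570 * a ^ 2 + 1936703 * a ^ 3 + 2488812 * a ^ 4 + 1771630 * a ^ 5
    + 464123 * a ^ 6 - 239216 * a ^ 7 - 96601 * a ^ 8 + 252370 * a ^ 9 + 331453 * a ^ 10 +
    201196 * a ^ 11 + 72633 * a ^ 12 + 15982 * a ^ 13 + 1986 * a ^ 14 + 107 * a ^ 15

theorem coefA3_nonneg {a : ℝ} (h0 : 0 ≤ a) (h1 : a ≤ 1) : 0 ≤ coefA3 a := by
  have hb : 0 ≤ 1 - a := by linarith
  have e : coefA3 a =
      440 * (1 - a) ^ 15 + 161244 * a ^ 1 * (1 - a) ^ 14 + 3041786 * a ^ 2 * (1 - a) ^ 13 +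
      27006917 * a ^ 3 * (1 - a) ^ 12 + 147404724 * a ^ 4 * (1 - a) ^ 11 + 550633944 * a ^ 5
      * (1 - a) ^ 10 + 1486796781 * a ^ 6 * (1 - a) ^ 9 + 2989154128 * a ^ 7 * (1 - a) ^ 8 +
      4541298163 * a ^ 8 * (1 - a) ^ 7 + 5235107715 * a ^ 9 * (1 - a) ^ 6 + 4554913332 * a ^
      10 * (1 - a) ^ 5 + 2945272393 * a ^ 11 * (1 - a) ^ 4 + 1374806424 * a ^ 12 * (1 - a) ^
      3 + 439856568 * a ^ 13 * (1 - a) ^ 2 + 87117984 * a ^ 14 * (1 - a) ^ 1 + 8186832 * a ^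
      15 := by
    unfold coefA3; ring
  rw [e]; positivity

/-- Bernstein coefficient `4` of `polyA`. -/
noncomputable def coefA4 (a : ℝ) : ℝ :=
    1040 + 227712 * a + 1265624 * a ^ 2 + 3086248 * a ^ 3 + 4197393 * a ^ 4 + 3264286 * a ^
    5 + 1146360 * a ^ 6 - 180655 * a ^ 7 - 120480 * a ^ 8 + 383723 * a ^ 9 + 518586 * a ^ 10
    + 323003 * a ^ 11 + 119566 * a ^ 12 + 27052 * a ^ 13 + 3475 * a ^ 14 + 195 * a ^ 15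

theorem coefA4_nonneg {a : ℝ} (h0 : 0 ≤ a) (h1 : a ≤ 1) : 0 ≤ coefA4 a := by
  have hb : 0 ≤ 1 - a := by linarith
  have e : coefA4 a =
      1040 * (1 - a) ^ 15 + 243312 * a ^ 1 * (1 - a) ^ 14 + 4562792 * a ^ 2 * (1 - a) ^ 13 +
      40734352 * a ^ 3 * (1 - a) ^ 12 + 224257809 * a ^ 4 * (1 - a) ^ 11 + 846159273 * a ^ 5
      * (1 - a) ^ 10 + 2309626179 * a ^ 6 * (1 - a) ^ 9 + 4696661684 * a ^ 7 * (1 - a) ^ 8 +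
      7220876434 * a ^ 8 * (1 - a) ^ 7 + 8428000161 * a ^ 9 * (1 - a) ^ 6 + 7428580210 * a ^
      10 * (1 - a) ^ 5 + 4868863470 * a ^ 11 * (1 - a) ^ 4 + 2304820215 * a ^ 12 * (1 - a) ^
      3 + 747937530 * a ^ 13 * (1 - a) ^ 2 + 150138036 * a ^ 14 * (1 - a) ^ 1 + 14263128 * a
      ^ 15 := by
    unfold coefA4; ring
  rw [e]; positivity

/-- Bernstein coefficient `5` of `polyA`. -/
noncomputable def coefA5 (a : ℝ) : ℝ :=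
    13056 + 289264 * a + 1443096 * a ^ 2 + 3481272 * a ^ 3 + 4859596 * a ^ 4 + 4035723 * a ^
    5 + (3479175/2) * a ^ 6 + 97606 * a ^ 7 - 64299 * a ^ 8 + 368800 * a ^ 9 + 507265 * a ^
    10 + 322714 * a ^ 11 + 121619 * a ^ 12 + 27995 * a ^ 13 + (7327/2) * a ^ 14 + 210 * a ^
    15

theorem coefA5_nonneg {a : ℝ} (h0 : 0 ≤ a) (h1 : a ≤ 1) : 0 ≤ coefA5 a := by
  have hb : 0 ≤ 1 - a := by linarith
  have e : coefA5 a =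
      13056 * (1 - a) ^ 15 + 485104 * a ^ 1 * (1 - a) ^ 14 + 6863672 * a ^ 2 * (1 - a) ^ 13
      + 54505024 * a ^ 3 * (1 - a) ^ 12 + 282309884 * a ^ 4 * (1 - a) ^ 11 + 1028741119 * a
      ^ 5 * (1 - a) ^ 10 + (5503039771/2) * a ^ 6 * (1 - a) ^ 9 + (11064728225/2) * a ^ 7 *
      (1 - a) ^ 8 + 8461584707 * a ^ 8 * (1 - a) ^ 7 + 9868465343 * a ^ 9 * (1 - a) ^ 6 +
      8720904967 * a ^ 10 * (1 - a) ^ 5 + 5745747513 * a ^ 11 * (1 - a) ^ 4 + 2739159918 * a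
      ^ 12 * (1 - a) ^ 3 + 895846284 * a ^ 13 * (1 - a) ^ 2 + 181045368 * a ^ 14 * (1 - a) ^
      1 + 17247168 * a ^ 15 := by
    unfold coefA5; ring
  rw [e]; positivity

/-- Bernstein coefficient `6` of `polyA`. -/
noncomputable def coefA6 (a : ℝ) : ℝ :=
    22752 + 267552 * a + 1154952 * a ^ 2 + 2663760 * a ^ 3 + 3718946 * a ^ 4 + 3216642 * a ^
    5 + (3170175/2) * a ^ 6 + 291078 * a ^ 7 + 7303 * a ^ 8 + 214718 * a ^ 9 + 300831 * a ^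
    10 + 195817 * a ^ 11 + 74996 * a ^ 12 + 17479 * a ^ 13 + (4625/2) * a ^ 14 + 134 * a ^
    15

theorem coefA6_nonneg {a : ℝ} (h0 : 0 ≤ a) (h1 : a ≤ 1) : 0 ≤ coefA6 a := by
  have hb : 0 ≤ 1 - a := by linarith
  have e : coefA6 a =
      22752 * (1 - a) ^ 15 + 608832 * a ^ 1 * (1 - a) ^ 14 + 7289640 * a ^ 2 * (1 - a) ^ 13
      + 52377528 * a ^ 3 * (1 - a) ^ 12 + 254215730 * a ^ 4 * (1 - a) ^ 11 + 886393288 * a ^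
      5 * (1 - a) ^ 10 + (4599248563/2) * a ^ 6 * (1 - a) ^ 9 + (9055568091/2) * a ^ 7 * (1
      - a) ^ 8 + 6828891433 * a ^ 8 * (1 - a) ^ 7 + 7895755533 * a ^ 9 * (1 - a) ^ 6 +
      6946595235 * a ^ 10 * (1 - a) ^ 5 + 4571247744 * a ^ 11 * (1 - a) ^ 4 + 2181571947 * a
      ^ 12 * (1 - a) ^ 3 + 714934674 * a ^ 13 * (1 - a) ^ 2 + 144624852 * a ^ 14 * (1 - a) ^
      1 + 13734360 * a ^ 15 := by
    unfold coefA6; ring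
  rw [e]; positivity

/-- Bernstein coefficient `7` of `polyA`. -/
noncomputable def coefA7 (a : ℝ) : ℝ :=
    15872 + 144640 * a + 558720 * a ^ 2 + 1224896 * a ^ 3 + 1685856 * a ^ 4 + 1487696 * a ^
    5 + 795800 * a ^ 6 + 206164 * a ^ 7 + 21748 * a ^ 8 + 66770 * a ^ 9 + 97374 * a ^ 10 +
    65515 * a ^ 11 + 25592 * a ^ 12 + 6040 * a ^ 13 + 806 * a ^ 14 + 47 * a ^ 15

theorem coefA7_nonneg {a : ℝ} (h0 : 0 ≤ a) (h1 : a ≤ 1) : 0 ≤ coefA7 a := by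
  have hb : 0 ≤ 1 - a := by linarith
  have e : coefA7 a =
      15872 * (1 - a) ^ 15 + 382720 * a ^ 1 * (1 - a) ^ 14 + 4250240 * a ^ 2 * (1 - a) ^ 13
      + 28872256 * a ^ 3 * (1 - a) ^ 12 + 134279008 * a ^ 4 * (1 - a) ^ 11 + 453117424 * a ^
      5 * (1 - a) ^ 10 + 1146365400 * a ^ 6 * (1 - a) ^ 9 + 2214367324 * a ^ 7 * (1 - a) ^ 8
      + 3292597812 * a ^ 8 * (1 - a) ^ 7 + 3768481134 * a ^ 9 * (1 - a) ^ 6 + 3292958718 * a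
      ^ 10 * (1 - a) ^ 5 + 2158024275 * a ^ 11 * (1 - a) ^ 4 + 1027581876 * a ^ 12 * (1 - a)
      ^ 3 + 336249792 * a ^ 13 * (1 - a) ^ 2 + 67849488 * a ^ 14 * (1 - a) ^ 1 + 6403536 * a
      ^ 15 := by
    unfold coefA7; ring
  rw [e]; positivity

/-- Bernstein coefficient `8` of `polyA`. -/
noncomputable def coefA8 (a : ℝ) : ℝ :=
    4096 + 33280 * a + 119808 * a ^ 2 + 251904 * a ^ 3 + 340224 * a ^ 4 + 302016 * a ^ 5 +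
    169216 * a ^ 6 + 51104 * a ^ 7 + 6224 * a ^ 8 + 7810 * a ^ 9 + 12748 * a ^ 10 + 9098 * a
    ^ 11 + 3665 * a ^ 12 + 881 * a ^ 13 + 119 * a ^ 14 + 7 * a ^ 15

theorem coefA8_nonneg {a : ℝ} (h0 : 0 ≤ a) (h1 : a ≤ 1) : 0 ≤ coefA8 a := by
  have hb : 0 ≤ 1 - a := by linarith
  have e : coefA8 a =
      4096 * (1 - a) ^ 15 + 94720 * a ^ 1 * (1 - a) ^ 14 + 1015808 * a ^ 2 * (1 - a) ^ 13 +
      6701568 * a ^ 3 * (1 - a) ^ 12 + 30413056 * a ^ 4 * (1 - a) ^ 11 + 100548800 * a ^ 5 *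
      (1 - a) ^ 10 + 250110336 * a ^ 6 * (1 - a) ^ 9 + 476484704 * a ^ 7 * (1 - a) ^ 8 +
      700695888 * a ^ 8 * (1 - a) ^ 7 + 795093426 * a ^ 9 * (1 - a) ^ 6 + 690292584 * a ^ 10
      * (1 - a) ^ 5 + 450263124 * a ^ 11 * (1 - a) ^ 4 + 213657993 * a ^ 12 * (1 - a) ^ 3 +
      69696774 * a ^ 13 * (1 - a) ^ 2 + 14005548 * a ^ 14 * (1 - a) ^ 1 + 1312200 * a ^ 15 := by
    unfold coefA8; ring
  rw [e]; positivity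

/-- Monomial coefficient `0` of the rescaled `polyA`. -/
noncomputable def monoA0 (a : ℝ) : ℝ :=
    -464 - 4392 * a - 14912 * a ^ 2 - 26064 * a ^ 3 - 26024 * a ^ 4 - 13824 * a ^ 5 - 1090 *
    a ^ 6 + 3090 * a ^ 7 + 422 * a ^ 8 - 2496 * a ^ 9 - 2618 * a ^ 10 - 1326 * a ^ 11 - 382
    * a ^ 12 - 60 * a ^ 13 - 4 * a ^ 14

/-- Monomial coefficient `1` of the rescaled `polyA`. -/
noncomputable def monoA1 (a : ℝ) : ℝ :=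
    1464 + 5896 * a + 5442 * a ^ 2 - 10630 * a ^ 3 - 30046 * a ^ 4 - 28022 * a ^ 5 - 7307 *
    a ^ 6 + 6750 * a ^ 7 + 4012 * a ^ 8 - 4312 * a ^ 9 - 7323 * a ^ 10 - 5038 * a ^ 11 -
    2030 * a ^ 12 - 496 * a ^ 13 - 68 * a ^ 14 - 4 * a ^ 15

/-- Monomial coefficient `2` of the rescaled `polyA`. -/
noncomputable def monoA2 (a : ℝ) : ℝ :=
    -520 - 3148 * a - 11502 * a ^ 2 - 29835 * a ^ 3 - 50921 * a ^ 4 - 53669 * a ^ 5 - 32115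
    * a ^ 6 - 8417 * a ^ 7 - 735 * a ^ 8 - 3401 * a ^ 9 - 5011 * a ^ 10 - 3433 * a ^ 11 -
    1415 * a ^ 12 - 369 * a ^ 13 - 57 * a ^ 14 - 4 * a ^ 15

/-- Monomial coefficient `3` of the rescaled `polyA`. -/
noncomputable def monoA3 (a : ℝ) : ℝ :=
    -2080 - 13620 * a - 40768 * a ^ 2 - 74879 * a ^ 3 - 94976 * a ^ 4 - 87010 * a ^ 5 -
    56946 * a ^ 6 - 25072 * a ^ 7 - 6873 * a ^ 8 - 1636 * a ^ 9 - 996 * a ^ 10 - 544 * a ^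
    11 - 121 * a ^ 12 + 8 * a ^ 13 + 8 * a ^ 14 + 1 * a ^ 15

/-- Monomial coefficient `4` of the rescaled `polyA`. -/
noncomputable def monoA4 (a : ℝ) : ℝ :=
    -1600 - 11312 * a - 35884 * a ^ 2 - 67798 * a ^ 3 - 85408 * a ^ 4 - 75751 * a ^ 5 -
    47860 * a ^ 6 - 20280 * a ^ 7 - 4090 * a ^ 8 + 1112 * a ^ 9 + 1124 * a ^ 10 + 362 * a ^
    11 + 54 * a ^ 12 + 3 * a ^ 13

/-- Monomial coefficient `5` of the rescaled `polyA`. -/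
noncomputable def monoA5 (a : ℝ) : ℝ :=
    -712 - 5264 * a - 17238 * a ^ 2 - 32956 * a ^ 3 - 40830 * a ^ 4 - 34325 * a ^ 5 -
    (39205/2) * a ^ 6 - 6716 * a ^ 7 + 37 * a ^ 8 + 1828 * a ^ 9 + 1332 * a ^ 10 + 524 * a ^
    11 + 117 * a ^ 12 + 13 * a ^ 13 + (1/2) * a ^ 14

/-- Monomial coefficient `6` of the rescaled `polyA`. -/
noncomputable def monoA6 (a : ℝ) : ℝ :=
    -168 - 1308 * a - 4470 * a ^ 2 - 8767 * a ^ 3 - 10795 * a ^ 4 - 8492 * a ^ 5 - 3968 * a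
    ^ 6 - 545 * a ^ 7 + 813 * a ^ 8 + 941 * a ^ 9 + 641 * a ^ 10 + 300 * a ^ 11 + 90 * a ^
    12 + 15 * a ^ 13 + 1 * a ^ 14

/-- Monomial coefficient `7` of the rescaled `polyA`. -/
noncomputable def monoA7 (a : ℝ) : ℝ :=
    -16 - 132 * a - 476 * a ^ 2 - 975 * a ^ 3 - 1224 * a ^ 4 - 923 * a ^ 5 - (655/2) * a ^ 6
    + 86 * a ^ 7 + 190 * a ^ 8 + 154 * a ^ 9 + 103 * a ^ 10 + 57 * a ^ 11 + 22 * a ^ 12 + 5
    * a ^ 13 + (1/2) * a ^ 14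

theorem polyA_expand (a W : ℝ) : polyA a W * (2 + a) ^ 8 =
      (-(11/2) - (11/2) * a) * (W * (2 + a)) ^ 0 * (2 + a) ^ 8 + (-(11/2) * a - (11/2) * a ^
      2 + 1 * a ^ 4 + 5 * a ^ 5 - 4 * a ^ 7) * (W * (2 + a)) ^ 1 * (2 + a) ^ 7 + ((33/2) +
      (11/2) * a - 11 * a ^ 2 + 6 * a ^ 4 + 6 * a ^ 5 - 4 * a ^ 6 - 4 * a ^ 7) * (W * (2 +
      a)) ^ 2 * (2 + a) ^ 6 + ((33/2) * a - (9/2) * a ^ 2 - 21 * a ^ 3 + 6 * a ^ 4 - 5 * a ^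
      6 + 1 * a ^ 7) * (W * (2 + a)) ^ 3 * (2 + a) ^ 5 + (-12 * a - 32 * a ^ 2 - 20 * a ^ 3
      + (1/2) * a ^ 4 + (1/2) * a ^ 5) * (W * (2 + a)) ^ 4 * (2 + a) ^ 4 + (-5 - 33 * a - 34
      * a ^ 2 - 6 * a ^ 3 + 1 * a ^ 4 + (3/2) * a ^ 5 + (1/2) * a ^ 6) * (W * (2 + a)) ^ 5 *
      (2 + a) ^ 3 + (-14 - 26 * a - 8 * a ^ 2 + 4 * a ^ 3 + (1/2) * a ^ 4 + (3/2) * a ^ 5 +
      1 * a ^ 6) * (W * (2 + a)) ^ 6 * (2 + a) ^ 2 + (-8 - 6 * a + 3 * a ^ 2 + 1 * a ^ 3 +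
      (1/2) * a ^ 5 + (1/2) * a ^ 6) * (W * (2 + a)) ^ 7 * (2 + a) ^ 1 := by
  unfold polyA polyPert; ring

theorem polyA_shift (a s : ℝ) :
      (-(11/2) - (11/2) * a) * (1 + (1 + a) * s) ^ 0 * (2 + a) ^ 8 + (-(11/2) * a - (11/2) *
      a ^ 2 + 1 * a ^ 4 + 5 * a ^ 5 - 4 * a ^ 7) * (1 + (1 + a) * s) ^ 1 * (2 + a) ^ 7 +
      ((33/2) + (11/2) * a - 11 * a ^ 2 + 6 * a ^ 4 + 6 * a ^ 5 - 4 * a ^ 6 - 4 * a ^ 7) *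
      (1 + (1 + a) * s) ^ 2 * (2 + a) ^ 6 + ((33/2) * a - (9/2) * a ^ 2 - 21 * a ^ 3 + 6 * a
      ^ 4 - 5 * a ^ 6 + 1 * a ^ 7) * (1 + (1 + a) * s) ^ 3 * (2 + a) ^ 5 + (-12 * a - 32 * a
      ^ 2 - 20 * a ^ 3 + (1/2) * a ^ 4 + (1/2) * a ^ 5) * (1 + (1 + a) * s) ^ 4 * (2 + a) ^
      4 + (-5 - 33 * a - 34 * a ^ 2 - 6 * a ^ 3 + 1 * a ^ 4 + (3/2) * a ^ 5 + (1/2) * a ^ 6)
      * (1 + (1 + a) * s) ^ 5 * (2 + a) ^ 3 + (-14 - 26 * a - 8 * a ^ 2 + 4 * a ^ 3 + (1/2)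
      * a ^ 4 + (3/2) * a ^ 5 + 1 * a ^ 6) * (1 + (1 + a) * s) ^ 6 * (2 + a) ^ 2 + (-8 - 6 *
      a + 3 * a ^ 2 + 1 * a ^ 3 + (1/2) * a ^ 5 + (1/2) * a ^ 6) * (1 + (1 + a) * s) ^ 7 *
      (2 + a) ^ 1
      = monoA0 a * s ^ 0 + monoA1 a * s ^ 1 + monoA2 a * s ^ 2 + monoA3 a * s ^ 3 + monoA4 a *
      s ^ 4 + monoA5 a * s ^ 5 + monoA6 a * s ^ 6 + monoA7 a * s ^ 7 := by
  unfold monoA0 monoA1 monoA2 monoA3 monoA4 monoA5 monoA6 monoA7; ring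

theorem polyA_bernstein (a s : ℝ) :
      -(coefA0 a * s ^ 0 * (1 - s) ^ 8 + coefA1 a * s ^ 1 * (1 - s) ^ 7 + coefA2 a * s ^ 2 *
      (1 - s) ^ 6 + coefA3 a * s ^ 3 * (1 - s) ^ 5 + coefA4 a * s ^ 4 * (1 - s) ^ 4 + coefA5
      a * s ^ 5 * (1 - s) ^ 3 + coefA6 a * s ^ 6 * (1 - s) ^ 2 + coefA7 a * s ^ 7 * (1 - s)
      ^ 1 + coefA8 a * s ^ 8 * (1 - s) ^ 0)
      = monoA0 a * s ^ 0 + monoA1 a * s ^ 1 + monoA2 a * s ^ 2 + monoA3 a * s ^ 3 + monoA4 a *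
      s ^ 4 + monoA5 a * s ^ 5 + monoA6 a * s ^ 6 + monoA7 a * s ^ 7 := by
  unfold coefA0 coefA1 coefA2 coefA3 coefA4 coefA5 coefA6 coefA7 coefA8 monoA0 monoA1 monoA2 monoA3 monoA4 monoA5 monoA6 monoA7; ring

theorem polyA_nonpos {a W : ℝ} (h0 : 0 ≤ a) (h1 : a ≤ 1) (h2 : 1 ≤ W * (2 + a)) (h3 : W ≤ 1) :
    polyA a W ≤ 0 := by
  have e1 := polyA_expand a W
  obtain ⟨s, hs0, hs1, hX⟩ : ∃ s : ℝ, 0 ≤ s ∧ s ≤ 1 ∧ W * (2 + a) = 1 + (1 + a) * s := by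
    refine ⟨(W * (2 + a) - 1) / (1 + a), div_nonneg (by linarith) (by linarith), ?_, ?_⟩
    · rw [div_le_one (by linarith)]; nlinarith
    · field_simp; ring
  rw [hX, polyA_shift, ← polyA_bernstein] at e1
  have ht : 0 ≤ 1 - s := by linarith
  have c0 := coefA0_nonneg h0 h1
  have c1 := coefA1_nonneg h0 h1
  have c2 := coefA2_nonneg h0 h1
  have c3 := coefA3_nonneg h0 h1
  have c4 := coefA4_nonneg h0 h1
  have c5 := coefA5_nonneg h0 h1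
  have c6 := coefA6_nonneg h0 h1
  have c7 := coefA7_nonneg h0 h1
  have c8 := coefA8_nonneg h0 h1
  have hpos : 0 ≤ coefA0 a * s ^ 0 * (1 - s) ^ 8 + coefA1 a * s ^ 1 * (1 - s) ^ 7 + coefA2 a * s ^ 2 *
      (1 - s) ^ 6 + coefA3 a * s ^ 3 * (1 - s) ^ 5 + coefA4 a * s ^ 4 * (1 - s) ^ 4 + coefA5
      a * s ^ 5 * (1 - s) ^ 3 + coefA6 a * s ^ 6 * (1 - s) ^ 2 + coefA7 a * s ^ 7 * (1 - s)
      ^ 1 + coefA8 a * s ^ 8 * (1 - s) ^ 0 := by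
    positivity
  have hp : (0 : ℝ) < (2 + a) ^ 8 := by positivity
  exact nonpos_of_mul_nonpos_left (by rw [e1]; linarith) hp

/-- Bernstein coefficient `0` of `polyB`. -/
noncomputable def coefB0 (a : ℝ) : ℝ :=
    0

theorem coefB0_nonneg {a : ℝ} (h0 : 0 ≤ a) (h1 : a ≤ 1) : 0 ≤ coefB0 a := by
  simp [coefB0]

/-- Bernstein coefficient `1` of `polyB`. -/
noncomputable def coefB1 (a : ℝ) : ℝ :=
    1408 * a ^ 2 + 7744 * a ^ 3 + 18400 * a ^ 4 + 23952 * a ^ 5 + 15688 * a ^ 6 - 1636 * a ^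
    7 - 12534 * a ^ 8 - 8317 * a ^ 9 + 3004 * a ^ 10 + 8885 * a ^ 11 + 7090 * a ^ 12 + 3147
    * a ^ 13 + 834 * a ^ 14 + 124 * a ^ 15 + 8 * a ^ 16

theorem coefB1_nonneg {a : ℝ} (h0 : 0 ≤ a) (h1 : a ≤ 1) : 0 ≤ coefB1 a := by
  have hb : 0 ≤ 1 - a := by linarith
  have e : coefB1 a =
      1408 * a ^ 2 * (1 - a) ^ 14 + 27456 * a ^ 3 * (1 - a) ^ 13 + 247200 * a ^ 4 * (1 - a)
      ^ 12 + 1361296 * a ^ 5 * (1 - a) ^ 11 + 5117752 * a ^ 6 * (1 - a) ^ 10 + 13876380 * a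
      ^ 7 * (1 - a) ^ 9 + 27933534 * a ^ 8 * (1 - a) ^ 8 + 42312995 * a ^ 9 * (1 - a) ^ 7 +
      48335241 * a ^ 10 * (1 - a) ^ 6 + 41321556 * a ^ 11 * (1 - a) ^ 5 + 25974972 * a ^ 12
      * (1 - a) ^ 4 + 11659950 * a ^ 13 * (1 - a) ^ 3 + 3572100 * a ^ 14 * (1 - a) ^ 2 +
      690363 * a ^ 15 * (1 - a) ^ 1 + 67797 * a ^ 16 := by
    unfold coefB1; ring
  rw [e]; positivity

/-- Bernstein coefficient `2` of `polyB`. -/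
noncomputable def coefB2 (a : ℝ) : ℝ :=
    1408 * a + 19712 * a ^ 2 + 84128 * a ^ 3 + 180640 * a ^ 4 + 223176 * a ^ 5 + 145824 * a
    ^ 6 + 422 * a ^ 7 - 86606 * a ^ 8 - 55846 * a ^ 9 + 25782 * a ^ 10 + 66002 * a ^ 11 +
    51318 * a ^ 12 + 22470 * a ^ 13 + 5902 * a ^ 14 + 872 * a ^ 15 + 56 * a ^ 16

theorem coefB2_nonneg {a : ℝ} (h0 : 0 ≤ a) (h1 : a ≤ 1) : 0 ≤ coefB2 a := by
  have hb : 0 ≤ 1 - a := by linarith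
  have e : coefB2 a =
      1408 * a ^ 1 * (1 - a) ^ 15 + 40832 * a ^ 2 * (1 - a) ^ 14 + 507936 * a ^ 3 * (1 - a)
      ^ 13 + 3708736 * a ^ 4 * (1 - a) ^ 12 + 18049928 * a ^ 5 * (1 - a) ^ 11 + 62543544 * a
      ^ 6 * (1 - a) ^ 10 + 160136126 * a ^ 7 * (1 - a) ^ 9 + 309248464 * a ^ 8 * (1 - a) ^ 8
      + 454556050 * a ^ 9 * (1 - a) ^ 7 + 508492876 * a ^ 10 * (1 - a) ^ 6 + 429137388 * a ^
      11 * (1 - a) ^ 5 + 268297272 * a ^ 12 * (1 - a) ^ 4 + 120574440 * a ^ 13 * (1 - a) ^ 3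
      + 37108044 * a ^ 14 * (1 - a) ^ 2 + 7161696 * a ^ 15 * (1 - a) ^ 1 + 685260 * a ^ 16 := by
    unfold coefB2; ring
  rw [e]; positivity

/-- Bernstein coefficient `3` of `polyB`. -/
noncomputable def coefB3 (a : ℝ) : ℝ :=
    352 + 11440 * a + 99056 * a ^ 2 + 363848 * a ^ 3 + 729390 * a ^ 4 + 869863 * a ^ 5 +
    570632 * a ^ 6 + 50171 * a ^ 7 - 250892 * a ^ 8 - 158516 * a ^ 9 + 91792 * a ^ 10 +
    209072 * a ^ 11 + 158784 * a ^ 12 + 68672 * a ^ 13 + 17892 * a ^ 14 + 2628 * a ^ 15 +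
    168 * a ^ 16

theorem coefB3_nonneg {a : ℝ} (h0 : 0 ≤ a) (h1 : a ≤ 1) : 0 ≤ coefB3 a := by
  have hb : 0 ≤ 1 - a := by linarith
  have e : coefB3 a =
      352 * (1 - a) ^ 16 + 17072 * a ^ 1 * (1 - a) ^ 15 + 312896 * a ^ 2 * (1 - a) ^ 14 +
      3148952 * a ^ 3 * (1 - a) ^ 13 + 20319350 * a ^ 4 * (1 - a) ^ 12 + 91212207 * a ^ 5 *
      (1 - a) ^ 11 + 298667585 * a ^ 6 * (1 - a) ^ 10 + 733810268 * a ^ 7 * (1 - a) ^ 9 +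
      1374338716 * a ^ 8 * (1 - a) ^ 8 + 1974814654 * a ^ 9 * (1 - a) ^ 7 + 2173741706 * a ^
      10 * (1 - a) ^ 6 + 1815529776 * a ^ 11 * (1 - a) ^ 5 + 1129290246 * a ^ 12 * (1 - a) ^
      4 + 507234987 * a ^ 13 * (1 - a) ^ 3 + 156394881 * a ^ 14 * (1 - a) ^ 2 + 30132000 * a
      ^ 15 * (1 - a) ^ 1 + 2834352 * a ^ 16 := by
    unfold coefB3; ring
  rw [e]; positivity

/-- Bernstein coefficient `4` of `polyB`. -/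
noncomputable def coefB4 (a : ℝ) : ℝ :=
    1760 + 36448 * a + 251760 * a ^ 2 + 836864 * a ^ 3 + 1594382 * a ^ 4 + 1851786 * a ^ 5 +
    1221582 * a ^ 6 + 189646 * a ^ 7 - 393700 * a ^ 8 - 246132 * a ^ 9 + 177272 * a ^ 10 +
    366292 * a ^ 11 + 272304 * a ^ 12 + 116456 * a ^ 13 + 30120 * a ^ 14 + 4400 * a ^ 15 +
    280 * a ^ 16

theorem coefB4_nonneg {a : ℝ} (h0 : 0 ≤ a) (h1 : a ≤ 1) : 0 ≤ coefB4 a := by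
  have hb : 0 ≤ 1 - a := by linarith
  have e : coefB4 a =
      1760 * (1 - a) ^ 16 + 64608 * a ^ 1 * (1 - a) ^ 15 + 1009680 * a ^ 2 * (1 - a) ^ 14 +
      9174144 * a ^ 3 * (1 - a) ^ 13 + 55170814 * a ^ 4 * (1 - a) ^ 12 + 235339602 * a ^ 5 *
      (1 - a) ^ 11 + 741722728 * a ^ 6 * (1 - a) ^ 10 + 1769955656 * a ^ 7 * (1 - a) ^ 9 +
      3241321412 * a ^ 8 * (1 - a) ^ 8 + 4578637512 * a ^ 9 * (1 - a) ^ 7 + 4977237556 * a ^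
      10 * (1 - a) ^ 6 + 4122432200 * a ^ 11 * (1 - a) ^ 5 + 2552649550 * a ^ 12 * (1 - a) ^
      4 + 1145134230 * a ^ 13 * (1 - a) ^ 3 + 353242620 * a ^ 14 * (1 - a) ^ 2 + 67929408 *
      a ^ 15 * (1 - a) ^ 1 + 6311520 * a ^ 16 := by
    unfold coefB4; ring
  rw [e]; positivity

/-- Bernstein coefficient `5` of `polyB`. -/
noncomputable def coefB5 (a : ℝ) : ℝ :=
    3432 + 59036 * a + 359862 * a ^ 2 + 1116953 * a ^ 3 + 2046630 * a ^ 4 + 2327249 * a ^ 5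
    + 1542662 * a ^ 6 + 320296 * a ^ 7 - 360026 * a ^ 8 - 225339 * a ^ 9 + 201650 * a ^ 10 +
    383512 * a ^ 11 + 279586 * a ^ 12 + 118359 * a ^ 13 + 30410 * a ^ 14 + 4420 * a ^ 15 +
    280 * a ^ 16

theorem coefB5_nonneg {a : ℝ} (h0 : 0 ≤ a) (h1 : a ≤ 1) : 0 ≤ coefB5 a := by
  have hb : 0 ≤ 1 - a := by linarith
  have e : coefB5 a =
      3432 * (1 - a) ^ 16 + 113948 * a ^ 1 * (1 - a) ^ 15 + 1657242 * a ^ 2 * (1 - a) ^ 14 +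
      14275721 * a ^ 3 * (1 - a) ^ 13 + 82422081 * a ^ 4 * (1 - a) ^ 12 + 340574027 * a ^ 5
      * (1 - a) ^ 11 + 1046658965 * a ^ 6 * (1 - a) ^ 10 + 2447806590 * a ^ 7 * (1 - a) ^ 9
      + 4411270960 * a ^ 8 * (1 - a) ^ 8 + 6153364151 * a ^ 9 * (1 - a) ^ 7 + 6625998161 * a
      ^ 10 * (1 - a) ^ 6 + 5452166274 * a ^ 11 * (1 - a) ^ 5 + 3363197184 * a ^ 12 * (1 - a)
      ^ 4 + 1506557117 * a ^ 13 * (1 - a) ^ 3 + 464617143 * a ^ 14 * (1 - a) ^ 2 + 89176032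
      * a ^ 15 * (1 - a) ^ 1 + 8208972 * a ^ 16 := by
    unfold coefB5; ring
  rw [e]; positivity

/-- Bernstein coefficient `6` of `polyB`. -/
noncomputable def coefB6 (a : ℝ) : ℝ :=
    3184 + 51048 * a + 290812 * a ^ 2 + 862798 * a ^ 3 + 1535786 * a ^ 4 + 1717130 * a ^ 5 +
    1141874 * a ^ 6 + 281782 * a ^ 7 - 191626 * a ^ 8 - 121498 * a ^ 9 + 135574 * a ^ 10 +
    240058 * a ^ 11 + 171894 * a ^ 12 + 72098 * a ^ 13 + 18414 * a ^ 14 + 2664 * a ^ 15 +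
    168 * a ^ 16

theorem coefB6_nonneg {a : ℝ} (h0 : 0 ≤ a) (h1 : a ≤ 1) : 0 ≤ coefB6 a := by
  have hb : 0 ≤ 1 - a := by linarith
  have e : coefB6 a =
      3184 * (1 - a) ^ 16 + 101992 * a ^ 1 * (1 - a) ^ 15 + 1438612 * a ^ 2 * (1 - a) ^ 14 +
      12077246 * a ^ 3 * (1 - a) ^ 13 + 68237772 * a ^ 4 * (1 - a) ^ 12 + 276888606 * a ^ 5
      * (1 - a) ^ 11 + 838049836 * a ^ 6 * (1 - a) ^ 10 + 1935041986 * a ^ 7 * (1 - a) ^ 9 +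
      3450470684 * a ^ 8 * (1 - a) ^ 8 + 4772056930 * a ^ 9 * (1 - a) ^ 7 + 5104625628 * a ^
      10 * (1 - a) ^ 6 + 4180515846 * a ^ 11 * (1 - a) ^ 5 + 2571383368 * a ^ 12 * (1 - a) ^
      4 + 1150407862 * a ^ 13 * (1 - a) ^ 3 + 354620040 * a ^ 14 * (1 - a) ^ 2 + 67950648 *
      a ^ 15 * (1 - a) ^ 1 + 6212160 * a ^ 16 := by
    unfold coefB6; ring
  rw [e]; positivity

/-- Bernstein coefficient `7` of `polyB`. -/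
noncomputable def coefB7 (a : ℝ) : ℝ :=
    1336 + 21796 * a + 121204 * a ^ 2 + 351288 * a ^ 3 + 614302 * a ^ 4 + 679043 * a ^ 5 +
    452396 * a ^ 6 + 123695 * a ^ 7 - 55598 * a ^ 8 - 35813 * a ^ 9 + 49988 * a ^ 10 + 83205
    * a ^ 11 + 58604 * a ^ 12 + 24374 * a ^ 13 + 6192 * a ^ 14 + 892 * a ^ 15 + 56 * a ^ 16

theorem coefB7_nonneg {a : ℝ} (h0 : 0 ≤ a) (h1 : a ≤ 1) : 0 ≤ coefB7 a := by
  have hb : 0 ≤ 1 - a := by linarith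
  have e : coefB7 a =
      1336 * (1 - a) ^ 16 + 43172 * a ^ 1 * (1 - a) ^ 15 + 608464 * a ^ 2 * (1 - a) ^ 14 +
      5084884 * a ^ 3 * (1 - a) ^ 13 + 28559310 * a ^ 4 * (1 - a) ^ 12 + 115156575 * a ^ 5 *
      (1 - a) ^ 11 + 346411449 * a ^ 6 * (1 - a) ^ 10 + 795335608 * a ^ 7 * (1 - a) ^ 9 +
      1411071910 * a ^ 8 * (1 - a) ^ 8 + 1943194753 * a ^ 9 * (1 - a) ^ 7 + 2071542495 * a ^
      10 * (1 - a) ^ 6 + 1692399084 * a ^ 11 * (1 - a) ^ 5 + 1039510728 * a ^ 12 * (1 - a) ^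
      4 + 464842056 * a ^ 13 * (1 - a) ^ 3 + 143285056 * a ^ 14 * (1 - a) ^ 2 + 27431520 * a
      ^ 15 * (1 - a) ^ 1 + 2496960 * a ^ 16 := by
    unfold coefB7; ring
  rw [e]; positivity

/-- Bernstein coefficient `8` of `polyB`. -/
noncomputable def coefB8 (a : ℝ) : ℝ :=
    176 + 3344 * a + 19136 * a ^ 2 + 55792 * a ^ 3 + 97558 * a ^ 4 + 107694 * a ^ 5 + 71918
    * a ^ 6 + 20614 * a ^ 7 - 7130 * a ^ 8 - 4510 * a ^ 9 + 7806 * a ^ 10 + 12322 * a ^ 11 +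
    8548 * a ^ 12 + 3528 * a ^ 13 + 892 * a ^ 14 + 128 * a ^ 15 + 8 * a ^ 16

theorem coefB8_nonneg {a : ℝ} (h0 : 0 ≤ a) (h1 : a ≤ 1) : 0 ≤ coefB8 a := by
  have hb : 0 ≤ 1 - a := by linarith
  have e : coefB8 a =
      176 * (1 - a) ^ 16 + 6160 * a ^ 1 * (1 - a) ^ 15 + 90416 * a ^ 2 * (1 - a) ^ 14 +
      773376 * a ^ 3 * (1 - a) ^ 13 + 4406070 * a ^ 4 * (1 - a) ^ 12 + 17928998 * a ^ 5 * (1
      - a) ^ 11 + 54258468 * a ^ 6 * (1 - a) ^ 10 + 125077436 * a ^ 7 * (1 - a) ^ 9 +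
      222528898 * a ^ 8 * (1 - a) ^ 8 + 307061574 * a ^ 9 * (1 - a) ^ 7 + 327859780 * a ^ 10
      * (1 - a) ^ 6 + 268231808 * a ^ 11 * (1 - a) ^ 5 + 164991968 * a ^ 12 * (1 - a) ^ 4 +
      73896032 * a ^ 13 * (1 - a) ^ 3 + 22814528 * a ^ 14 * (1 - a) ^ 2 + 4372736 * a ^ 15 *
      (1 - a) ^ 1 + 397824 * a ^ 16 := by
    unfold coefB8; ring
  rw [e]; positivity

/-- Monomial coefficient `1` of the rescaled `polyB`. -/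
noncomputable def monoB1 (a : ℝ) : ℝ :=
    -1408 * a ^ 2 - 7744 * a ^ 3 - 18400 * a ^ 4 - 23952 * a ^ 5 - 15688 * a ^ 6 + 1636 * a
    ^ 7 + 12534 * a ^ 8 + 8317 * a ^ 9 - 3004 * a ^ 10 - 8885 * a ^ 11 - 7090 * a ^ 12 -
    3147 * a ^ 13 - 834 * a ^ 14 - 124 * a ^ 15 - 8 * a ^ 16

/-- Monomial coefficient `2` of the rescaled `polyB`. -/
noncomputable def monoB2 (a : ℝ) : ℝ :=
    -1408 * a - 9856 * a ^ 2 - 29920 * a ^ 3 - 51840 * a ^ 4 - 55512 * a ^ 5 - 36008 * a ^ 6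
    - 11874 * a ^ 7 - 1132 * a ^ 8 - 2373 * a ^ 9 - 4754 * a ^ 10 - 3807 * a ^ 11 - 1688 * a
    ^ 12 - 441 * a ^ 13 - 64 * a ^ 14 - 4 * a ^ 15

/-- Monomial coefficient `3` of the rescaled `polyB`. -/
noncomputable def monoB3 (a : ℝ) : ℝ :=
    -352 - 2992 * a - 10352 * a ^ 2 - 21704 * a ^ 3 - 31950 * a ^ 4 - 33799 * a ^ 5 - 25136
    * a ^ 6 - 13283 * a ^ 7 - 5530 * a ^ 8 - 1903 * a ^ 9 - 184 * a ^ 10 + 355 * a ^ 11 +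
    234 * a ^ 12 + 61 * a ^ 13 + 6 * a ^ 14

/-- Monomial coefficient `4` of the rescaled `polyB`. -/
noncomputable def monoB4 (a : ℝ) : ℝ :=
    -368 * a - 2880 * a ^ 2 - 8504 * a ^ 3 - 13032 * a ^ 4 - 11791 * a ^ 5 - 6702 * a ^ 6 -
    2381 * a ^ 7 - 360 * a ^ 8 + 147 * a ^ 9 + 98 * a ^ 10 + 13 * a ^ 11 - 4 * a ^ 12 - 1 *
    a ^ 13

/-- Monomial coefficient `5` of the rescaled `polyB`. -/
noncomputable def monoB5 (a : ℝ) : ℝ :=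
    88 + 516 * a + 1578 * a ^ 2 + 3543 * a ^ 3 + 5798 * a ^ 4 + 6465 * a ^ 5 + 4746 * a ^ 6
    + 2278 * a ^ 7 + 716 * a ^ 8 + 146 * a ^ 9 + 18 * a ^ 10 + 1 * a ^ 11

/-- Monomial coefficient `6` of the rescaled `polyB`. -/
noncomputable def monoB6 (a : ℝ) : ℝ :=
    72 + 652 * a + 2662 * a ^ 2 + 6061 * a ^ 3 + 8512 * a ^ 4 + 7883 * a ^ 5 + 5028 * a ^ 6
    + 2254 * a ^ 7 + 704 * a ^ 8 + 146 * a ^ 9 + 18 * a ^ 10 + 1 * a ^ 11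

/-- Monomial coefficient `7` of the rescaled `polyB`. -/
noncomputable def monoB7 (a : ℝ) : ℝ :=
    16 + 232 * a + 1010 * a ^ 2 + 2225 * a ^ 3 + 2998 * a ^ 4 + 2691 * a ^ 5 + 1662 * a ^ 6
    + 694 * a ^ 7 + 186 * a ^ 8 + 29 * a ^ 9 + 2 * a ^ 10

/-- Monomial coefficient `8` of the rescaled `polyB`. -/
noncomputable def monoB8 (a : ℝ) : ℝ :=
    24 * a + 110 * a ^ 2 + 251 * a ^ 3 + 356 * a ^ 4 + 321 * a ^ 5 + 180 * a ^ 6 + 62 * a ^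
    7 + 12 * a ^ 8 + 1 * a ^ 9

theorem polyB_expand (a W : ℝ) : polyB a W * (2 + a) ^ 8 =
      (-11 * a ^ 2 - 22 * a ^ 3 - 9 * a ^ 4 + 8 * a ^ 5 + 17 * a ^ 6 + 6 * a ^ 7 - 12 * a ^
      8 - 8 * a ^ 9) * (W * (2 + a)) ^ 1 * (2 + a) ^ 7 + (-22 * a - 88 * a ^ 2 - 121 * a ^ 3
      - 62 * a ^ 4 + 13 * a ^ 5 + 20 * a ^ 6 - 9 * a ^ 7 - 16 * a ^ 8 - 4 * a ^ 9) * (W * (2
      + a)) ^ 2 * (2 + a) ^ 6 + (-11 - 66 * a - 131 * a ^ 2 - 172 * a ^ 3 - 155 * a ^ 4 - 54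
      * a ^ 5 - 5 * a ^ 6 - 16 * a ^ 7 + 1 * a ^ 8 + 6 * a ^ 9) * (W * (2 + a)) ^ 3 * (2 +
      a) ^ 5 + (-23 * a - 134 * a ^ 2 - 229 * a ^ 3 - 144 * a ^ 4 - 37 * a ^ 5 - 6 * a ^ 6 +
      5 * a ^ 7 + 4 * a ^ 8 - 1 * a ^ 9) * (W * (2 + a)) ^ 4 * (2 + a) ^ 4 + (11 + 48 * a +
      117 * a ^ 2 + 230 * a ^ 3 + 286 * a ^ 4 + 192 * a ^ 5 + 62 * a ^ 6 + 12 * a ^ 7 + 1 *
      a ^ 8) * (W * (2 + a)) ^ 5 * (2 + a) ^ 3 + (18 + 145 * a + 516 * a ^ 2 + 963 * a ^ 3 +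
      1036 * a ^ 4 + 694 * a ^ 5 + 304 * a ^ 6 + 86 * a ^ 7 + 14 * a ^ 8 + 1 * a ^ 9) * (W *
      (2 + a)) ^ 6 * (2 + a) ^ 2 + (8 + 112 * a + 449 * a ^ 2 + 888 * a ^ 3 + 1055 * a ^ 4 +
      818 * a ^ 5 + 422 * a ^ 6 + 136 * a ^ 7 + 25 * a ^ 8 + 2 * a ^ 9) * (W * (2 + a)) ^ 7
      * (2 + a) ^ 1 + (24 * a + 110 * a ^ 2 + 251 * a ^ 3 + 356 * a ^ 4 + 321 * a ^ 5 + 180
      * a ^ 6 + 62 * a ^ 7 + 12 * a ^ 8 + 1 * a ^ 9) * (W * (2 + a)) ^ 8 * (2 + a) ^ 0 := by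
  unfold polyB polyPert; ring

theorem polyB_shift (a s : ℝ) :
      (-11 * a ^ 2 - 22 * a ^ 3 - 9 * a ^ 4 + 8 * a ^ 5 + 17 * a ^ 6 + 6 * a ^ 7 - 12 * a ^
      8 - 8 * a ^ 9) * s ^ 1 * (2 + a) ^ 7 + (-22 * a - 88 * a ^ 2 - 121 * a ^ 3 - 62 * a ^
      4 + 13 * a ^ 5 + 20 * a ^ 6 - 9 * a ^ 7 - 16 * a ^ 8 - 4 * a ^ 9) * s ^ 2 * (2 + a) ^
      6 + (-11 - 66 * a - 131 * a ^ 2 - 172 * a ^ 3 - 155 * a ^ 4 - 54 * a ^ 5 - 5 * a ^ 6 -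
      16 * a ^ 7 + 1 * a ^ 8 + 6 * a ^ 9) * s ^ 3 * (2 + a) ^ 5 + (-23 * a - 134 * a ^ 2 -
      229 * a ^ 3 - 144 * a ^ 4 - 37 * a ^ 5 - 6 * a ^ 6 + 5 * a ^ 7 + 4 * a ^ 8 - 1 * a ^
      9) * s ^ 4 * (2 + a) ^ 4 + (11 + 48 * a + 117 * a ^ 2 + 230 * a ^ 3 + 286 * a ^ 4 +
      192 * a ^ 5 + 62 * a ^ 6 + 12 * a ^ 7 + 1 * a ^ 8) * s ^ 5 * (2 + a) ^ 3 + (18 + 145 *
      a + 516 * a ^ 2 + 963 * a ^ 3 + 1036 * a ^ 4 + 694 * a ^ 5 + 304 * a ^ 6 + 86 * a ^ 7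
      + 14 * a ^ 8 + 1 * a ^ 9) * s ^ 6 * (2 + a) ^ 2 + (8 + 112 * a + 449 * a ^ 2 + 888 * a
      ^ 3 + 1055 * a ^ 4 + 818 * a ^ 5 + 422 * a ^ 6 + 136 * a ^ 7 + 25 * a ^ 8 + 2 * a ^ 9)
      * s ^ 7 * (2 + a) ^ 1 + (24 * a + 110 * a ^ 2 + 251 * a ^ 3 + 356 * a ^ 4 + 321 * a ^
      5 + 180 * a ^ 6 + 62 * a ^ 7 + 12 * a ^ 8 + 1 * a ^ 9) * s ^ 8 * (2 + a) ^ 0
      = monoB1 a * s ^ 1 + monoB2 a * s ^ 2 + monoB3 a * s ^ 3 + monoB4 a * s ^ 4 + monoB5 a *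
      s ^ 5 + monoB6 a * s ^ 6 + monoB7 a * s ^ 7 + monoB8 a * s ^ 8 := by
  unfold monoB1 monoB2 monoB3 monoB4 monoB5 monoB6 monoB7 monoB8; ring

theorem polyB_bernstein (a s : ℝ) :
      -(coefB0 a * s ^ 0 * (1 - s) ^ 8 + coefB1 a * s ^ 1 * (1 - s) ^ 7 + coefB2 a * s ^ 2 *
      (1 - s) ^ 6 + coefB3 a * s ^ 3 * (1 - s) ^ 5 + coefB4 a * s ^ 4 * (1 - s) ^ 4 + coefB5
      a * s ^ 5 * (1 - s) ^ 3 + coefB6 a * s ^ 6 * (1 - s) ^ 2 + coefB7 a * s ^ 7 * (1 - s)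
      ^ 1 + coefB8 a * s ^ 8 * (1 - s) ^ 0)
      = monoB1 a * s ^ 1 + monoB2 a * s ^ 2 + monoB3 a * s ^ 3 + monoB4 a * s ^ 4 + monoB5 a *
      s ^ 5 + monoB6 a * s ^ 6 + monoB7 a * s ^ 7 + monoB8 a * s ^ 8 := by
  unfold coefB0 coefB1 coefB2 coefB3 coefB4 coefB5 coefB6 coefB7 coefB8 monoB1 monoB2 monoB3 monoB4 monoB5 monoB6 monoB7 monoB8; ring

theorem polyB_nonpos {a W : ℝ} (h0 : 0 ≤ a) (h1 : a ≤ 1) (h2 : 0 ≤ W) (h3 : W * (2 + a) ≤ 1) :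
    polyB a W ≤ 0 := by
  have e1 := polyB_expand a W
  obtain ⟨s, hs0, hs1, hX⟩ : ∃ s : ℝ, 0 ≤ s ∧ s ≤ 1 ∧ W * (2 + a) = s :=
    ⟨_, mul_nonneg h2 (by linarith), h3, rfl⟩
  rw [hX, polyB_shift, ← polyB_bernstein] at e1
  have ht : 0 ≤ 1 - s := by linarith
  have c0 := coefB0_nonneg h0 h1
  have c1 := coefB1_nonneg h0 h1
  have c2 := coefB2_nonneg h0 h1
  have c3 := coefB3_nonneg h0 h1
  have c4 := coefB4_nonneg h0 h1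
  have c5 := coefB5_nonneg h0 h1
  have c6 := coefB6_nonneg h0 h1
  have c7 := coefB7_nonneg h0 h1
  have c8 := coefB8_nonneg h0 h1
  have hpos : 0 ≤ coefB0 a * s ^ 0 * (1 - s) ^ 8 + coefB1 a * s ^ 1 * (1 - s) ^ 7 + coefB2 a * s ^ 2 *
      (1 - s) ^ 6 + coefB3 a * s ^ 3 * (1 - s) ^ 5 + coefB4 a * s ^ 4 * (1 - s) ^ 4 + coefB5
      a * s ^ 5 * (1 - s) ^ 3 + coefB6 a * s ^ 6 * (1 - s) ^ 2 + coefB7 a * s ^ 7 * (1 - s)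
      ^ 1 + coefB8 a * s ^ 8 * (1 - s) ^ 0 := by
    positivity
  have hp : (0 : ℝ) < (2 + a) ^ 8 := by positivity
  exact nonpos_of_mul_nonpos_left (by rw [e1]; linarith) hp

end Vale.Agent.P231.Point
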