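import Vale.Agent.P231.Final.Normal

/-!
Interface of the pointwise argument: the split of the mean Riccati trace along the kernel projection
and the linear inequalities it satisfies.
-/

namespace Vale.Agent.P231

open Matrix Real Set Filter Topology

/-- Mean trace on the kernel direction at `x` of the Riccati operator based at `x - t`. -/
noncomputable def meanKer {l k : ℕ} (S : JacobiSystem l k) (t : ℝ) : ℝ :=
  mean fun x => (kerProj S x * ricc S (x - t) x).trace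

/-- Its odd part in `t`, normalised by the model. -/
noncomputable def devKer {l k : ℕ} (S : JacobiSystem l k) (t : ℝ) : ℝ :=
  (meanKer S t - meanKer S (-t)) / 2 - l * ((cos t ^ 2 - sin t ^ 2) / (sin t * cos t))

/-- What the pointwise argument uses: `y` is the normalised mean log-density, `p` the kernel part of
its derivative. -/
structure PointData (y y' y'' p p' : ℝ → ℝ) (ye : ℝ) : Prop where
  deriv : ∀ t ∈ Ioo (0 : ℝ) (π / 2), HasDerivAt y (y' t) t
  deriv' : ∀ t ∈ Ioo (0 : ℝ) (π / 2), HasDerivAt y' (y'' t) t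
  derivp : ∀ t ∈ Ioo (0 : ℝ) (π / 2), HasDerivAt p (p' t) t
  ye_nonneg : 0 ≤ ye
  left : Tendsto y (𝓝[>] 0) (𝓝 0)
  right : Tendsto y (𝓝[<] (π / 2)) (𝓝 ye)
  growth : ∃ C, ∀ t ∈ Ioc (0 : ℝ) (π / 4),
    t * |y' t| ≤ C * (1 + |log t|) ∧ t * |y' (π / 2 - t)| ≤ C * (1 + |log t|)
  pair_diff : ∀ t r, 0 < t → t < r → r < π / 2 →
    0 ≤ sin (2 * (r - t)) * (y t + y r - y (r - t))
      + 2 * (sin t * sin r * cos (r - t)) * (y' t - y' r)
      - 2 * (sin t ^ 2 * sin r ^ 2) * (p t - p r)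
  pair_sum : ∀ t r, 0 < t → 0 < r → t + r < π / 2 →
    0 ≤ sin (2 * (r + t)) * (y t + y r - y (r + t))
      + 2 * (sin t * sin r * cos (r + t)) * (y' t + y' r)
      + 2 * (sin t ^ 2 * sin r ^ 2) * (p t + p r)
  ker_sum : ∀ t ∈ Ioo (0 : ℝ) (π / 2), 0 ≤ p t + p (π / 2 - t)
  side_one : ∀ t ∈ Ioo (0 : ℝ) (π / 2),
    0 ≤ sin t * (y' t - p t) + cos t * (y t + ye - y (π / 2 - t))
  split : ∀ t ∈ Ioo (0 : ℝ) (π / 2),
    0 ≤ 2 * y t - (sin t * cos t) ^ 2 * p' t - sin t ^ 2 * (y'' t - p' t)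
  second : ∀ t ∈ Ioo (0 : ℝ) (π / 2),
    sin t ^ 2 * cos t ^ 2 * y'' t
      ≤ sin t ^ 2 * (y t + y (π / 2 - t) + sin t * cos t * (y' t + y' (π / 2 - t)))
        + 2 * cos t ^ 2 * y t

/-- Scalar goal: the minimum principle. -/
def PointGoal : Prop :=
  ∀ {y y' y'' p p' : ℝ → ℝ} {ye : ℝ}, PointData y y' y'' p p' ye →
    ∀ t ∈ Ioo (0 : ℝ) (π / 2), 0 ≤ y t

end Vale.Agent.P231
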